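import Mathlib
import Crest.Prelude.Def_AmpDamp

/-!
Row 341: convexity of the output entropy of pure states in the excited population.
-/

set_option autoImplicit false

open Set

namespace Crest.Agent.R341

open Crest.MathPhysics.AmpDamp

/-- determinant of the output of a pure state -/
def vfun (γ ν p : ℝ) : ℝ := γ * ν * (1 - ν) + γ * (1 - γ) * (p - ν) ^ 2

/-- entropy of the output of a pure state -/
noncomputable def ffun (γ ν p : ℝ) : ℝ := Real.binEntropy ((1 + √(1 - 4 * vfun γ ν p)) / 2)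

lemma gadRate_eq (γ ν p : ℝ) :
    gadRate γ ν p = Real.binEntropy ((1 - γ) * p + γ * ν) - ffun γ ν p := rfl

lemma vfun_nonneg {γ ν : ℝ} (hγ : γ ∈ Icc (0 : ℝ) 1) (hν : ν ∈ Icc (0 : ℝ) 1) (p : ℝ) :
    0 ≤ vfun γ ν p := by
  have h1 := hγ.1
  have h2 := hν.1
  have h3 : 0 ≤ 1 - γ := by linarith [hγ.2]
  have h4 : 0 ≤ 1 - ν := by linarith [hν.2]
  unfold vfun; positivity

lemma vfun_le {γ : ℝ} (ν : ℝ) (hγ : γ ∈ Icc (0 : ℝ) 1) {p : ℝ} (hp : p ∈ Icc (0 : ℝ) 1) :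
    4 * vfun γ ν p ≤ 1 := by
  have h3 : 0 ≤ 1 - γ := by linarith [hγ.2]
  have h4 : 0 ≤ 1 - p := by linarith [hp.2]
  have h5 : 0 ≤ (1 - γ) * p * (1 - p) := mul_nonneg (mul_nonneg h3 hp.1) h4
  have e : 1 - 4 * vfun γ ν p =
      (1 - 2 * ((1 - γ) * p + γ * ν)) ^ 2 + 4 * ((1 - γ) * p * (1 - p)) := by
    unfold vfun; ring
  nlinarith [sq_nonneg (1 - 2 * ((1 - γ) * p + γ * ν))]

/-- entropy as a function of the concurrence -/
noncomputable def Wc (C : ℝ) : ℝ := Real.binEntropy ((1 + √(1 - C ^ 2)) / 2)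

noncomputable def Lg (y : ℝ) : ℝ := Real.log (1 + y) - Real.log (1 - y)

lemma two_mul_le_Lg {y : ℝ} (h0 : 0 ≤ y) (h1 : y < 1) : 2 * y ≤ Lg y := by
  have h := Real.hasSum_log_sub_log_of_abs_lt_one (x := y) (by rw [abs_of_nonneg h0]; exact h1)
  have := le_hasSum h 0 (fun j _ => by positivity)
  simpa [Lg] using this

lemma Wc_continuous : Continuous Wc := by
  unfold Wc
  exact Real.binEntropy_continuous.comp (by fun_prop)

lemma sq_aux {C : ℝ} (hC : C ∈ Ioo (0 : ℝ) 1) :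
    0 < √(1 - C ^ 2) ∧ √(1 - C ^ 2) < 1 ∧ √(1 - C ^ 2) ^ 2 = 1 - C ^ 2 ∧
      HasDerivAt (fun C : ℝ => √(1 - C ^ 2)) (-C / √(1 - C ^ 2)) C := by
  have h1 : 0 < 1 - C ^ 2 := by nlinarith [hC.1, hC.2]
  have h2 : 0 < √(1 - C ^ 2) := Real.sqrt_pos.mpr h1
  refine ⟨h2, ?_, Real.sq_sqrt h1.le, ?_⟩
  · rw [Real.sqrt_lt' one_pos]; nlinarith [hC.1]
  · have h3 : HasDerivAt (fun C : ℝ => 1 - C ^ 2) (-(2 * C)) C := by
      simpa using (hasDerivAt_pow 2 C).const_sub 1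
    refine (h3.sqrt h1.ne').congr_deriv ?_
    field_simp

lemma Wc_deriv {C : ℝ} (hC : C ∈ Ioo (0 : ℝ) 1) :
    HasDerivAt Wc (C * Lg √(1 - C ^ 2) / (2 * √(1 - C ^ 2))) C := by
  obtain ⟨h0, h1, -, hd⟩ := sq_aux hC
  have h2 : HasDerivAt (fun C : ℝ => (1 + √(1 - C ^ 2)) / 2) (-C / √(1 - C ^ 2) / 2) C :=
    (hd.const_add 1).div_const 2
  have h3 := (Real.hasDerivAt_binEntropy (p := (1 + √(1 - C ^ 2)) / 2) (by linarith)
    (by linarith)).comp C h2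
  refine h3.congr_deriv ?_
  generalize √(1 - C ^ 2) = y at h0 h1
  rw [show 1 - (1 + y) / 2 = (1 - y) / 2 by ring, Real.log_div (by linarith) two_ne_zero,
    Real.log_div (by linarith) two_ne_zero, Lg]
  field_simp
  ring

lemma Wc_deriv2 {C : ℝ} (hC : C ∈ Ioo (0 : ℝ) 1) :
    HasDerivAt (fun C : ℝ => C * Lg √(1 - C ^ 2) / (2 * √(1 - C ^ 2)))
      ((Lg √(1 - C ^ 2) - 2 * √(1 - C ^ 2)) / (2 * √(1 - C ^ 2) ^ 3)) C := by
  obtain ⟨h0, h1, hs, hd⟩ := sq_aux hC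
  have a1 := (hd.const_add 1).log (by linarith)
  have a2 := (hd.const_sub 1).log (by linarith)
  have a3 : HasDerivAt (fun C : ℝ => Lg √(1 - C ^ 2)) _ C := a1.sub a2
  have a4 := ((hasDerivAt_id' C).mul a3).div (hd.const_mul 2) (by linarith)
  refine a4.congr_deriv ?_
  simp only [Pi.mul_apply]
  generalize √(1 - C ^ 2) = y at h0 h1 hs
  generalize Lg y = L
  have b1 : 1 + y ≠ 0 := by linarith
  have b2 : 1 - y ≠ 0 := by linarith
  have hC2 : C ^ 2 = (1 + y) * (1 - y) := by linarith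
  field_simp
  rw [hC2]
  ring

lemma Wc_monotone : MonotoneOn Wc (Icc 0 1) := by
  refine monotoneOn_of_hasDerivWithinAt_nonneg (convex_Icc 0 1) Wc_continuous.continuousOn
    (f' := fun C => C * Lg √(1 - C ^ 2) / (2 * √(1 - C ^ 2))) ?_ ?_
  · intro C hC
    rw [interior_Icc] at hC
    exact (Wc_deriv hC).hasDerivWithinAt
  · intro C hC
    rw [interior_Icc] at hC
    obtain ⟨h0, h1, -, -⟩ := sq_aux hC
    have := two_mul_le_Lg h0.le h1
    have h2 : 0 ≤ Lg √(1 - C ^ 2) := by linarith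
    have := hC.1
    positivity

lemma Wc_convex : ConvexOn ℝ (Icc 0 1) Wc := by
  refine convexOn_of_hasDerivWithinAt2_nonneg (convex_Icc 0 1) Wc_continuous.continuousOn
    (f' := fun C => C * Lg √(1 - C ^ 2) / (2 * √(1 - C ^ 2)))
    (f'' := fun C => (Lg √(1 - C ^ 2) - 2 * √(1 - C ^ 2)) / (2 * √(1 - C ^ 2) ^ 3)) ?_ ?_ ?_
  · intro C hC
    rw [interior_Icc] at hC
    exact (Wc_deriv hC).hasDerivWithinAt
  · intro C hC
    rw [interior_Icc] at hC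
    exact (Wc_deriv2 hC).hasDerivWithinAt
  · intro C hC
    rw [interior_Icc] at hC
    obtain ⟨h0, h1, -, -⟩ := sq_aux hC
    have := two_mul_le_Lg h0.le h1
    exact div_nonneg (by linarith) (by positivity)

lemma ffun_jensen {γ ν : ℝ} (hγ : γ ∈ Icc (0 : ℝ) 1) (hν : ν ∈ Icc (0 : ℝ) 1) {ι : Type}
    [Fintype ι] {q p : ι → ℝ} (hq : ∀ a, 0 ≤ q a) (hq1 : ∑ a, q a = 1)
    (hp : ∀ a, p a ∈ Icc (0 : ℝ) 1) :
    ffun γ ν (∑ a, q a * p a) ≤ ∑ a, q a * ffun γ ν (p a) := by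
  have h1 := hγ.1
  have h2 := hν.1
  have h3 : 0 ≤ 1 - γ := by linarith [hγ.2]
  have h4 : 0 ≤ 1 - ν := by linarith [hν.2]
  set z : ℝ → ℂ := fun t => ⟨2 * √(γ * ν * (1 - ν)), 2 * √(γ * (1 - γ)) * (t - ν)⟩ with hz
  have hz2 : ∀ t, ‖z t‖ ^ 2 = 4 * vfun γ ν t := by
    intro t
    rw [← Complex.normSq_eq_norm_sq, Complex.normSq_apply]
    have e1 := Real.mul_self_sqrt (show 0 ≤ γ * ν * (1 - ν) by positivity)
    have e2 := Real.mul_self_sqrt (show 0 ≤ γ * (1 - γ) by positivity)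
    simp only [hz, vfun]
    linear_combination 4 * e1 + 4 * (t - ν) ^ 2 * e2
  have hf : ∀ t, ffun γ ν t = Wc ‖z t‖ := fun t => by rw [Wc, hz2, ffun]
  have hmem : ∀ t ∈ Icc (0 : ℝ) 1, ‖z t‖ ∈ Icc (0 : ℝ) 1 := by
    intro t ht
    refine ⟨norm_nonneg _, ?_⟩
    have := vfun_le ν hγ ht
    rw [← hz2] at this
    nlinarith [norm_nonneg (z t)]
  have hbar : ∑ a, q a * p a ∈ Icc (0 : ℝ) 1 := by
    refine ⟨Finset.sum_nonneg fun a _ => mul_nonneg (hq a) (hp a).1, ?_⟩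
    rw [← hq1]
    exact Finset.sum_le_sum fun a _ => mul_le_of_le_one_right (hq a) (hp a).2
  have hzs : z (∑ a, q a * p a) = ∑ a, (q a : ℂ) * z (p a) := by
    apply Complex.ext
    · simp only [hz, Complex.re_sum, Complex.re_ofReal_mul, ← Finset.sum_mul, hq1, one_mul]
    · simp only [hz, Complex.im_sum, Complex.im_ofReal_mul]
      have : ∀ a, q a * (2 * √(γ * (1 - γ)) * (p a - ν)) =
          2 * √(γ * (1 - γ)) * (q a * p a) - 2 * √(γ * (1 - γ)) * ν * q a := fun a => by ring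
      simp only [this, Finset.sum_sub_distrib, ← Finset.mul_sum, hq1]
      ring
  have hle : ‖z (∑ a, q a * p a)‖ ≤ ∑ a, q a * ‖z (p a)‖ := by
    rw [hzs]
    refine (norm_sum_le _ _).trans (le_of_eq (Finset.sum_congr rfl fun a _ => ?_))
    rw [norm_mul, Complex.norm_real, Real.norm_of_nonneg (hq a)]
  have hmem2 : ∑ a, q a * ‖z (p a)‖ ∈ Icc (0 : ℝ) 1 := by
    refine ⟨Finset.sum_nonneg fun a _ => mul_nonneg (hq a) (norm_nonneg _), ?_⟩
    rw [← hq1]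
    exact Finset.sum_le_sum fun a _ => mul_le_of_le_one_right (hq a) (hmem _ (hp a)).2
  have j := Wc_convex.map_sum_le (t := Finset.univ) (w := q) (p := fun a => ‖z (p a)‖)
    (fun a _ => hq a) hq1 (fun a _ => hmem _ (hp a))
  simp only [smul_eq_mul] at j
  simp only [hf]
  exact (Wc_monotone (hmem _ hbar) hmem2 hle).trans j

end Crest.Agent.R341
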