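import Crest.Agent.R341.Key
import Crest.Agent.R341.Fconv
import Crest.Prelude.Def_QChannel
import Crest.Prelude.Def_AmpDamp

/-!
Row 341: channels, blocks and the amplitude-damping map.
-/

set_option autoImplicit false
set_option linter.unusedSectionVars false

open Matrix Set
open scoped ComplexOrder MatrixOrder Kronecker

namespace Crest.Agent.R341

open Crest.Agent.R342 Crest.Quantum Crest.MathPhysics.AmpDamp

section good
variable {d e : Type} [Fintype d] [Fintype e] [DecidableEq d] [DecidableEq e]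

/-- linear, two-positive and trace preserving -/
structure Good (Ψ : Matrix d d ℂ → Matrix e e ℂ) : Prop where
  lin : IsLinearMap ℂ Ψ
  pos2 : ∀ M : Matrix (Bool × d) (Bool × d) ℂ, M.PosSemidef → (blockwise Ψ M).PosSemidef
  tp : IsTracePreserving Ψ

lemma Good.pos {Ψ : Matrix d d ℂ → Matrix e e ℂ} (h : Good Ψ) {ρ : Matrix d d ℂ}
    (hρ : ρ.PosSemidef) : (Ψ ρ).PosSemidef := by
  have h1 := (h.pos2 _ (hρ.submatrix (Prod.snd : Bool × d → d))).submatrix
    (fun i : e => ((false, i) : Bool × e))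
  exact h1

lemma Good.tr_eq {Ψ : Matrix d d ℂ → Matrix e e ℂ} (h : Good Ψ) (ρ : Matrix d d ℂ) :
    tr (Ψ ρ) = tr ρ := by unfold tr; rw [h.tp]

lemma Good.density {Ψ : Matrix d d ℂ → Matrix e e ℂ} (h : Good Ψ) {ρ : Matrix d d ℂ}
    (hρ : IsDensity ρ) : IsDensity (Ψ ρ) := ⟨h.pos hρ.1, (h.tp ρ).trans hρ.2⟩

lemma good_of_isChannel {Ψ : Matrix d d ℂ → Matrix e e ℂ} (h : IsChannel Ψ) : Good Ψ := by
  refine ⟨h.1, fun M hM => ?_, h.2.2⟩
  have h1 := (h.2.1 2 _ (hM.submatrix (fun p : Fin 2 × d => ((finTwoEquiv p.1, p.2) : Bool × d)))).submatrix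
    (fun p : Bool × e => ((finTwoEquiv.symm p.1, p.2) : Fin 2 × e))
  convert h1 using 1
  ext p q
  simp [blockwise, block]

lemma good_of_kraus {κ : Type} [Fintype κ] (K : κ → Matrix e d ℂ)
    {Ψ : Matrix d d ℂ → Matrix e e ℂ} (h : ∀ M, Ψ M = ∑ k, K k * M * (K k)ᴴ)
    (htp : IsTracePreserving Ψ) : Good Ψ := by
  refine ⟨⟨fun M N => ?_, fun c M => ?_⟩, fun M hM => ?_, htp⟩
  · simp only [h, Matrix.mul_add, Matrix.add_mul, Finset.sum_add_distrib]
  · simp only [h, Matrix.mul_smul, Matrix.smul_mul, Finset.smul_sum]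
  · have : blockwise Ψ M =
        ∑ k, ((1 : Matrix Bool Bool ℂ) ⊗ₖ K k) * M * ((1 : Matrix Bool Bool ℂ) ⊗ₖ K k)ᴴ := by
      ext ⟨s, i⟩ ⟨t, j⟩
      simp only [blockwise, of_apply, h, Matrix.sum_apply]
      refine Finset.sum_congr rfl fun k _ => ?_
      cases s <;> cases t <;>
        simp [mul_apply, Fintype.sum_prod_type, block, one_apply]
    rw [this]
    exact posSemidef_sum _ fun k _ => hM.mul_mul_conjTranspose_same _

lemma density_tr {ρ : Matrix d d ℂ} (h : IsDensity ρ) : tr ρ = 1 := by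
  unfold tr; rw [h.2]; simp

lemma submatrix_blocks (M : Matrix (Bool × d) (Bool × d) ℂ) :
    M.submatrix (Equiv.boolProdEquivSum d).symm (Equiv.boolProdEquivSum d).symm =
      fromBlocks (block M false false) (block M false true) (block M true false)
        (block M true true) := by
  ext (i | i) (j | j) <;> simp [block]

lemma psd_blocks {M : Matrix (Bool × d) (Bool × d) ℂ} (hM : M.PosSemidef) :
    (fromBlocks (block M false false) (block M false true) (block M true false)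
        (block M true true)).PosSemidef := by
  rw [← submatrix_blocks]; exact hM.submatrix _

lemma psd_of_blocks {M : Matrix (Bool × d) (Bool × d) ℂ}
    (hM : (fromBlocks (block M false false) (block M false true) (block M true false)
        (block M true true)).PosSemidef) : M.PosSemidef := by
  rw [← submatrix_blocks] at hM
  simpa using hM.submatrix (Equiv.boolProdEquivSum d)

lemma vn_blocks {M : Matrix (Bool × d) (Bool × d) ℂ} (hM : M.PosSemidef) :
    vnEntropy (fromBlocks (block M false false) (block M false true) (block M true false)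
        (block M true true)) = vnEntropy M := by
  rw [← submatrix_blocks, vn_submatrix hM]

lemma tr_blocks (M : Matrix (Bool × d) (Bool × d) ℂ) :
    tr (block M false false) + tr (block M true true) = tr M := by
  rw [← tr_submatrix M (Equiv.boolProdEquivSum d).symm, submatrix_blocks, tr_fromBlocks]

lemma psd_block {M : Matrix (Bool × d) (Bool × d) ℂ} (hM : M.PosSemidef) (s : Bool) :
    (block M s s).PosSemidef := hM.submatrix (fun i : d => ((s, i) : Bool × d))

lemma exists_normalize {B ω : Matrix d d ℂ} (hB : B.PosSemidef) (hω : IsDensity ω) :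
    ∃ σ : Matrix d d ℂ, IsDensity σ ∧ B = (tr B : ℂ) • σ := by
  rcases (tr_nonneg hB).eq_or_lt with h | h
  · exact ⟨ω, hω, by rw [← h, eq_zero_of_tr hB h.symm]; simp⟩
  · refine ⟨(((tr B)⁻¹ : ℝ) : ℂ) • B, ⟨psd_smul hB (inv_pos.mpr h).le, ?_⟩, ?_⟩
    · rw [trace_smul, trace_eq_tr hB, smul_eq_mul, ← Complex.ofReal_mul, inv_mul_cancel₀ h.ne']
      simp
    · rw [smul_smul, ← Complex.ofReal_mul, mul_inv_cancel₀ h.ne']; simp

end good

section gad
variable (γ ν : ℝ)

lemma gad_apply (M : Matrix Bool Bool ℂ) (s t : Bool) :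
    gadMap γ ν M s t = ∑ s' : Bool, ∑ t' : Bool, qubitCoeff (gadMap γ ν) s t s' t' * M s' t' := by
  cases s <;> cases t <;> simp [qubitCoeff, gadMap, add_comm]

/-- Kraus operators -/
noncomputable def kr (k : Bool × Bool) : Matrix Bool Bool ℂ :=
  Matrix.of fun s s' => (((match k, s, s' with
    | (false, false), false, false => √(1 - ν)
    | (false, false), true, true => √(1 - ν) * √(1 - γ)
    | (false, true), false, true => √(1 - ν) * √γ
    | (true, false), false, false => √ν * √(1 - γ)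
    | (true, false), true, true => √ν
    | (true, true), true, false => √ν * √γ
    | _, _, _ => 0) : ℝ) : ℂ)

variable {γ ν}

lemma coeff_kraus (hγ : γ ∈ Icc (0 : ℝ) 1) (hν : ν ∈ Icc (0 : ℝ) 1) (s t s' t' : Bool) :
    qubitCoeff (gadMap γ ν) s t s' t' = ∑ k, kr γ ν k s s' * star (kr γ ν k t t') := by
  have e1 := Real.mul_self_sqrt hγ.1
  have e2 := Real.mul_self_sqrt hν.1
  have e3 := Real.mul_self_sqrt (show 0 ≤ 1 - γ by linarith [hγ.2])
  have e4 := Real.mul_self_sqrt (show 0 ≤ 1 - ν by linarith [hν.2])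
  simp only [kr, of_apply, Complex.star_def, Complex.conj_ofReal, ← Complex.ofReal_mul,
    ← Complex.ofReal_sum, Fintype.sum_prod_type, Fintype.sum_bool]
  cases s <;> cases t <;> cases s' <;> cases t' <;>
    simp [qubitCoeff, gadMap, -Complex.ofReal_mul, -Complex.ofReal_add, -Complex.ofReal_sub]
  · linear_combination (-(√(1 - γ) * √(1 - γ))) * e2 - ν * e3 - e4
  · linear_combination (-(√γ * √γ)) * e4 - (1 - ν) * e1
  · linear_combination (-√(1 - γ)) * e2 - √(1 - γ) * e4
  · linear_combination (-√(1 - γ)) * e2 - √(1 - γ) * e4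
  · linear_combination (-(√γ * √γ)) * e2 - ν * e1
  · linear_combination (-(√(1 - γ) * √(1 - γ))) * e4 - (1 - ν) * e3 - e2

lemma coeff_trace (s' t' : Bool) :
    ∑ s, qubitCoeff (gadMap γ ν) s s s' t' = if s' = t' then 1 else 0 := by
  cases s' <;> cases t' <;> simp [qubitCoeff, gadMap]
  ring

lemma good_power (hγ : γ ∈ Icc (0 : ℝ) 1) (hν : ν ∈ Icc (0 : ℝ) 1) (n : ℕ) :
    Good (qubitPower n (gadMap γ ν)) := by
  refine good_of_kraus (κ := Fin n → Bool × Bool)
    (fun k => Matrix.of fun σ σ' => ∏ i, kr γ ν (k i) (σ i) (σ' i)) (fun M => ?_) (fun M => ?_)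
  · ext σ τ
    simp only [qubitPower, of_apply, coeff_kraus hγ hν, Matrix.sum_apply, mul_apply,
      conjTranspose_apply, Finset.prod_univ_sum, Fintype.piFinset_univ, Finset.sum_mul,
      Finset.prod_mul_distrib, star_prod]
    rw [Finset.sum_comm]
    conv_rhs => rw [Finset.sum_comm]
    refine Finset.sum_congr rfl fun τ' _ => ?_
    rw [Finset.sum_comm]
    refine Finset.sum_congr rfl fun k _ => Finset.sum_congr rfl fun σ' _ => ?_
    ring
  · simp only [trace, diag_apply, qubitPower, of_apply]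
    rw [Finset.sum_comm]
    refine Finset.sum_congr rfl fun σ' _ => ?_
    rw [Finset.sum_comm]
    have : ∀ τ' : Fin n → Bool,
        ∑ σ : Fin n → Bool, (∏ i, qubitCoeff (gadMap γ ν) (σ i) (σ i) (σ' i) (τ' i)) * M σ' τ' =
        if σ' = τ' then M σ' τ' else 0 := by
      intro τ'
      rw [← Finset.sum_mul]
      have h1 := Finset.prod_univ_sum (fun _ : Fin n => (Finset.univ : Finset Bool))
        (fun i s => qubitCoeff (gadMap γ ν) s s (σ' i) (τ' i))
      rw [Fintype.piFinset_univ] at h1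
      rw [← h1]
      simp only [coeff_trace, Finset.prod_ite_zero, Finset.mem_univ, forall_const,
        Finset.prod_const_one, funext_iff, ite_mul, one_mul, zero_mul]
    simp [this]

lemma good_gad (hγ : γ ∈ Icc (0 : ℝ) 1) (hν : ν ∈ Icc (0 : ℝ) 1) : Good (gadMap γ ν) := by
  refine good_of_kraus (kr γ ν) (fun M => ?_) (fun M => ?_)
  · ext s t
    simp only [gad_apply, coeff_kraus hγ hν, Matrix.sum_apply, mul_apply,
      conjTranspose_apply, Finset.sum_mul]
    rw [Finset.sum_comm]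
    conv_rhs => rw [Finset.sum_comm]
    refine Finset.sum_congr rfl fun τ' _ => ?_
    rw [Finset.sum_comm]
    refine Finset.sum_congr rfl fun k _ => Finset.sum_congr rfl fun σ' _ => ?_
    ring
  · simp [trace, gadMap]
    ring

/-- a real symmetric qubit matrix -/
noncomputable def mk2 (x y z : ℝ) : Matrix Bool Bool ℂ :=
  Matrix.of fun s t => if s = t then (if s then (z : ℂ) else (x : ℂ)) else (y : ℂ)

lemma gad_mk2 (x y z : ℝ) : gadMap γ ν (mk2 x y z) =
    mk2 ((1 - γ * ν) * x + γ * (1 - ν) * z) (√(1 - γ) * y) (γ * ν * x + (1 - γ + γ * ν) * z) := by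
  ext s t
  cases s <;> cases t <;> simp [gadMap, mk2]

lemma tr_mk2 (x y z : ℝ) : tr (mk2 x y z) = x + z := by
  simp [tr, trace, mk2, add_comm]

lemma vn_mk2 {x y z μ₁ μ₂ : ℝ} (h : (mk2 x y z).PosSemidef) (h₁ : 0 ≤ μ₁) (h₂ : 0 ≤ μ₂)
    (hs : μ₁ + μ₂ = x + z) (hp : μ₁ * μ₂ = x * z - y ^ 2) :
    vnEntropy (mk2 x y z) = Real.negMulLog μ₁ + Real.negMulLog μ₂ := by
  refine (vn_eq_sum h (d := ![μ₁, μ₂]) (fun i => by fin_cases i <;> simpa) (fun a _ => ?_)
    ?_).trans ?_
  · rw [← det_submatrix_equiv_self finTwoEquiv, det_fin_two]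
    simp [mk2, finTwoEquiv]
    have hs' : (μ₁ : ℂ) + μ₂ = x + z := by exact_mod_cast hs
    have hp' : (μ₁ : ℂ) * μ₂ = x * z - y ^ 2 := by exact_mod_cast hp
    linear_combination (-(a : ℂ)) * hs' - (a : ℂ) ^ 2 * hp'
  · rw [tr_mk2, ← hs]; simp
  · simp

/-- the pure states with excited population `p` and a sign -/
noncomputable def psi (p : ℝ) (b : Bool) : Matrix Bool Bool ℂ :=
  mk2 (1 - p) ((if b then -1 else 1) * (√(1 - p) * √p)) p

lemma psi_density {p : ℝ} (hp : p ∈ Icc (0 : ℝ) 1) (b : Bool) : IsDensity (psi p b) := by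
  have e1 : ((√p : ℝ) : ℂ) * ((√p : ℝ) : ℂ) = p := by
    rw [← Complex.ofReal_mul, Real.mul_self_sqrt hp.1]
  have e2 : ((√(1 - p) : ℝ) : ℂ) * ((√(1 - p) : ℝ) : ℂ) = 1 - p := by
    rw [← Complex.ofReal_mul, Real.mul_self_sqrt (by linarith [hp.2])]; simp
  constructor
  · set B : Matrix Unit Bool ℂ := Matrix.of fun _ s =>
      if s then (((if b then -1 else 1) * √p : ℝ) : ℂ) else ((√(1 - p) : ℝ) : ℂ) with hB
    have : psi p b = Bᴴ * B := by
      ext s t
      cases s <;> cases t <;> cases b <;> simp [hB, psi, mk2, mul_apply, e1, e2, mul_comm]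
    rw [this]; exact posSemidef_conjTranspose_mul_self B
  · simp [psi, mk2, trace]

lemma mu_spec (hγ : γ ∈ Icc (0 : ℝ) 1) (hν : ν ∈ Icc (0 : ℝ) 1) {p : ℝ}
    (hp : p ∈ Icc (0 : ℝ) 1) :
    ∃ μ₁ μ₂ : ℝ, 0 ≤ μ₁ ∧ 0 ≤ μ₂ ∧ μ₁ + μ₂ = 1 ∧ μ₁ * μ₂ = vfun γ ν p ∧
      ffun γ ν p = Real.negMulLog μ₁ + Real.negMulLog μ₂ := by
  have h1 := vfun_nonneg hγ hν p
  have h2 := vfun_le ν hγ hp
  have h3 := Real.sqrt_nonneg (1 - 4 * vfun γ ν p)
  have h4 := Real.sq_sqrt (show 0 ≤ 1 - 4 * vfun γ ν p by linarith)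
  have h5 : √(1 - 4 * vfun γ ν p) ≤ 1 := Real.sqrt_le_one.mpr (by linarith)
  refine ⟨(1 + √(1 - 4 * vfun γ ν p)) / 2, 1 - (1 + √(1 - 4 * vfun γ ν p)) / 2, by linarith,
    by linarith, by ring, by linear_combination (-1 / 4) * h4,
    Real.binEntropy_eq_negMulLog_add_negMulLog_one_sub _⟩

lemma vn_gad_psi (hγ : γ ∈ Icc (0 : ℝ) 1) (hν : ν ∈ Icc (0 : ℝ) 1) {p : ℝ}
    (hp : p ∈ Icc (0 : ℝ) 1) (b : Bool) : vnEntropy (gadMap γ ν (psi p b)) = ffun γ ν p := by
  obtain ⟨μ₁, μ₂, h₁, h₂, hs, hpr, hf⟩ := mu_spec hγ hν hp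
  have hP := (good_gad hγ hν).pos (psi_density hp b).1
  have e1 := Real.mul_self_sqrt hp.1
  have e2 := Real.mul_self_sqrt (show 0 ≤ 1 - p by linarith [hp.2])
  have e3 := Real.mul_self_sqrt (show 0 ≤ 1 - γ by linarith [hγ.2])
  rw [psi, gad_mk2] at hP ⊢
  rw [vn_mk2 hP h₁ h₂ (by rw [hs]; ring) ?_, hf]
  have e4 : (√(1 - γ) * ((if b then -1 else 1) * (√(1 - p) * √p))) ^ 2 =
      (1 - γ) * ((1 - p) * p) := by
    have : (√(1 - γ) * ((if b then -1 else 1) * (√(1 - p) * √p))) ^ 2 =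
        (√(1 - γ) * √(1 - γ)) * ((√(1 - p) * √(1 - p)) * (√p * √p)) := by
      cases b <;> simp <;> ring
    rw [this, e1, e2, e3]
  rw [e4, hpr, vfun]; ring

lemma vn_mk2_diag {r : ℝ} (hr : r ∈ Icc (0 : ℝ) 1) :
    vnEntropy (mk2 (1 - r) 0 r) = Real.binEntropy r := by
  have h1 : 0 ≤ 1 - r := by linarith [hr.2]
  have hP : (mk2 (1 - r) 0 r).PosSemidef := by
    have : mk2 (1 - r) 0 r = diagonal fun s : Bool => if s then (r : ℂ) else ((1 - r : ℝ) : ℂ) := by
      ext s t
      cases s <;> cases t <;> simp [mk2]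
    rw [this]
    refine PosSemidef.diagonal fun s => ?_
    cases s
    · simpa using (show (0 : ℂ) ≤ ((1 - r : ℝ) : ℂ) by exact_mod_cast h1)
    · simpa using hr.1
  rw [vn_mk2 hP hr.1 h1 (by ring) (by ring), Real.binEntropy_eq_negMulLog_add_negMulLog_one_sub]

end gad

end Crest.Agent.R341
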