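import Crest.Agent.R341.LogDet
import Crest.Prelude.Def_QState

/-!
Row 341: von Neumann entropy as an integral of log-determinants, and its elementary invariances.
-/

set_option autoImplicit false
set_option linter.unusedSectionVars false

open Matrix MeasureTheory Set Filter Topology
open scoped ComplexOrder MatrixOrder Kronecker

namespace Crest.Agent.R341

open Crest.Agent.R342 Crest.Quantum

/-- the kernel whose integral over `u > 0` is `-t log t` -/
noncomputable def kap (t u : ℝ) : ℝ := Real.log (1 + u⁻¹ * t) - t * Real.log (1 + u⁻¹)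

lemma kap_spec {t : ℝ} (ht : 0 ≤ t) :
    IntegrableOn (kap t) (Ioi 0) ∧ ∫ u in Ioi (0 : ℝ), kap t u = Real.negMulLog t := by
  rcases ht.eq_or_lt with h0 | htp
  · subst h0
    have : kap 0 = fun _ => 0 := by funext u; simp [kap]
    rw [this]; simp
  set G : ℝ → ℝ := fun u => (u + t) * Real.log (u + t) - u * Real.log u -
    t * ((u + 1) * Real.log (u + 1) - u * Real.log u) with hG
  have hc : ContinuousWithinAt G (Ici 0) 0 := by
    apply Continuous.continuousWithinAt
    have h1 : Continuous fun u : ℝ => (u + t) * Real.log (u + t) :=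
      Real.continuous_mul_log.comp (continuous_id.add continuous_const)
    have h2 : Continuous fun u : ℝ => (u + 1) * Real.log (u + 1) :=
      Real.continuous_mul_log.comp (continuous_id.add continuous_const)
    exact (h1.sub Real.continuous_mul_log).sub
      (continuous_const.mul (h2.sub Real.continuous_mul_log))
  have l1 : ∀ u : ℝ, 0 < u → ∀ s : ℝ, 0 ≤ s →
      Real.log (1 + u⁻¹ * s) = Real.log (u + s) - Real.log u := by
    intro u hu s hs
    rw [← Real.log_div (by positivity) hu.ne']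
    congr 1; field_simp
  have hd : ∀ u ∈ Ioi (0 : ℝ), HasDerivAt G (kap t u) u := by
    intro u hu
    have hu : 0 < u := hu
    have h1 : HasDerivAt (fun u : ℝ => (u + t) * Real.log (u + t)) (Real.log (u + t) + 1) u :=
      (Real.hasDerivAt_mul_log (x := u + t) (by positivity)).comp_add_const u t
    have h2 : HasDerivAt (fun u : ℝ => (u + 1) * Real.log (u + 1)) (Real.log (u + 1) + 1) u :=
      (Real.hasDerivAt_mul_log (x := u + 1) (by positivity)).comp_add_const u 1
    have h3 := Real.hasDerivAt_mul_log hu.ne'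
    refine ((h1.sub h3).sub ((h2.sub h3).const_mul t)).congr_deriv ?_
    have := l1 u hu 1 zero_le_one
    rw [mul_one] at this
    rw [kap, l1 u hu t ht, this]; ring
  have hl : Tendsto G atTop (𝓝 0) := by
    have a1 := Real.tendsto_mul_log_one_add_div_atTop t
    have a2 := Real.tendsto_mul_log_one_add_div_atTop 1
    have a3 : ∀ s : ℝ, Tendsto (fun u : ℝ => Real.log (1 + s / u)) atTop (𝓝 0) := by
      intro s
      have b1 : Tendsto (fun u : ℝ => 1 + s / u) atTop (𝓝 (1 + 0)) :=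
        tendsto_const_nhds.add (tendsto_const_nhds.div_atTop tendsto_id)
      have b2 := (Real.continuousAt_log (x := 1 + 0) (by norm_num)).tendsto.comp b1
      rw [add_zero, Real.log_one] at b2
      exact b2
    have a4 := (a1.sub (a2.const_mul t)).add (((a3 t).sub (a3 1)).const_mul t)
    simp only [mul_one, sub_self, mul_zero, add_zero] at a4
    refine a4.congr' ?_
    filter_upwards [Ioi_mem_atTop (0 : ℝ)] with u hu
    have hu : 0 < u := hu
    have e1 := l1 u hu t ht
    have e2 := l1 u hu 1 zero_le_one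
    rw [mul_comm, ← div_eq_mul_inv] at e1 e2
    simp only [hG]
    rw [e1, e2]; ring
  have hG0 : 0 - G 0 = Real.negMulLog t := by simp [hG, Real.negMulLog]
  rcases le_total t 1 with h1 | h1
  · have hp : ∀ u ∈ Ioi (0 : ℝ), 0 ≤ kap t u := by
      intro u hu
      have hu : 0 < u := hu
      have hi : 0 < u⁻¹ := inv_pos.mpr hu
      have := rpow_one_add_le_one_add_mul_self (s := u⁻¹) (by linarith) ht h1
      have h2 := Real.log_le_log (by positivity) this
      rw [Real.log_rpow (by positivity), mul_comm t u⁻¹] at h2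
      unfold kap; linarith
    exact ⟨integrableOn_Ioi_deriv_of_nonneg hc hd hp hl,
      (integral_Ioi_of_hasDerivAt_of_nonneg hc hd hp hl).trans hG0⟩
  · have hp : ∀ u ∈ Ioi (0 : ℝ), kap t u ≤ 0 := by
      intro u hu
      have hu : 0 < u := hu
      have hi : 0 < u⁻¹ := inv_pos.mpr hu
      have := one_add_mul_self_le_rpow_one_add (s := u⁻¹) (by linarith) h1
      have h2 := Real.log_le_log (by positivity) this
      rw [Real.log_rpow (by positivity), mul_comm t u⁻¹] at h2
      unfold kap; linarith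
    exact ⟨integrableOn_Ioi_deriv_of_nonpos hc hd hp hl,
      (integral_Ioi_of_hasDerivAt_of_nonpos hc hd hp hl).trans hG0⟩

lemma kap_sum_spec {ι : Type} [Fintype ι] {d : ι → ℝ} (hd : ∀ i, 0 ≤ d i) :
    IntegrableOn (fun u => ∑ i, kap (d i) u) (Ioi 0) ∧
      ∫ u in Ioi (0 : ℝ), ∑ i, kap (d i) u = ∑ i, Real.negMulLog (d i) := by
  refine ⟨integrable_finsetSum _ fun i _ => (kap_spec (hd i)).1, ?_⟩
  rw [integral_finsetSum _ fun i _ => (kap_spec (hd i)).1]
  exact Finset.sum_congr rfl fun i _ => (kap_spec (hd i)).2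

section basic
variable {n : Type} [Fintype n] [DecidableEq n]

/-- real trace -/
noncomputable def tr (A : Matrix n n ℂ) : ℝ := (trace A).re

lemma tr_add (A B : Matrix n n ℂ) : tr (A + B) = tr A + tr B := by simp [tr]

lemma tr_smul (c : ℝ) (A : Matrix n n ℂ) : tr ((c : ℂ) • A) = c * tr A := by simp [tr]

lemma tr_zero : tr (0 : Matrix n n ℂ) = 0 := by simp [tr]

lemma tr_nonneg {A : Matrix n n ℂ} (hA : A.PosSemidef) : 0 ≤ tr A :=
  (Complex.nonneg_iff.mp hA.trace_nonneg).1

lemma trace_eq_tr {A : Matrix n n ℂ} (hA : A.PosSemidef) : trace A = (tr A : ℂ) := by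
  apply Complex.ext
  · simp [tr]
  · simp [(Complex.nonneg_iff.mp hA.trace_nonneg).2.symm]

lemma eq_zero_of_tr {A : Matrix n n ℂ} (hA : A.PosSemidef) (h : tr A = 0) : A = 0 := by
  rw [← hA.trace_eq_zero_iff, trace_eq_tr hA, h]; simp

lemma vn_eq {A : Matrix n n ℂ} (hA : A.IsHermitian) :
    vnEntropy A = ∑ i, Real.negMulLog (ev A i) := by
  unfold vnEntropy ev
  rw [dif_pos hA, dif_pos hA, ← Finset.sum_neg_distrib]
  simp [Real.negMulLog]

lemma det_fc (f : ℝ → ℝ) (A : Matrix n n ℂ) : det (fc f A) = ((∏ i, f (ev A i) : ℝ) : ℂ) := by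
  unfold fc
  rw [det_mul, det_mul, mul_right_comm, ← det_mul, eU_mul, det_one, one_mul, det_diagonal]
  push_cast; rfl

lemma trace_fc_mul (f : ℝ → ℝ) (A B : Matrix n n ℂ) :
    trace (fc f A * B) = ∑ i, (f (ev A i) : ℂ) * ((eU A)ᴴ * B * eU A) i i := by
  unfold fc
  rw [Matrix.mul_assoc, Matrix.mul_assoc, trace_mul_comm, Matrix.mul_assoc]
  simp only [trace, diag_apply, diagonal_mul]

lemma trace_fc (f : ℝ → ℝ) (A : Matrix n n ℂ) : trace (fc f A) = ((∑ i, f (ev A i) : ℝ) : ℂ) := by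
  have := trace_fc_mul f A 1
  rw [Matrix.mul_one, Matrix.mul_one, eU_mul'] at this
  rw [this]; simp

lemma tr_eq_sum {A : Matrix n n ℂ} (hA : A.IsHermitian) : tr A = ∑ i, ev A i := by
  unfold tr
  conv_lhs => rw [← fc_id hA, trace_fc]
  simp

lemma fc_smul' (c : ℝ) (f : ℝ → ℝ) (A : Matrix n n ℂ) :
    (c : ℂ) • fc f A = fc (fun t => c * f t) A := by
  rw [← fc_smul]; rfl

lemma one_add_smul_eq_fc {A : Matrix n n ℂ} (hA : A.IsHermitian) (a : ℝ) :
    1 + (a : ℂ) • A = fc (fun t => 1 + a * t) A := by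
  rw [← fc_add, fc_one, ← fc_smul', fc_id hA]

lemma det_one_add {A : Matrix n n ℂ} (hA : A.IsHermitian) (a : ℝ) :
    det (1 + (a : ℂ) • A) = ((∏ i, (1 + a * ev A i) : ℝ) : ℂ) := by
  rw [one_add_smul_eq_fc hA, det_fc]

lemma ldet_of_det {ι : Type} [Fintype ι] {M : Matrix n n ℂ} {f : ι → ℝ} (hf : ∀ i, 0 < f i)
    (h : det M = ((∏ i, f i : ℝ) : ℂ)) : ldet M = ∑ i, Real.log (f i) := by
  unfold ldet
  rw [h, Complex.norm_real, Real.norm_of_nonneg (Finset.prod_nonneg fun i _ => (hf i).le),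
    Real.log_prod fun i _ => (hf i).ne']

lemma ldet_one_add {A : Matrix n n ℂ} (hA : A.PosSemidef) {a : ℝ} (ha : 0 ≤ a) :
    ldet (1 + (a : ℂ) • A) = ∑ i, Real.log (1 + a * ev A i) :=
  ldet_of_det (fun i => by have := ev_nonneg hA i; positivity) (det_one_add hA.1 a)

/-- integrand of the entropy -/
noncomputable def entk (A : Matrix n n ℂ) (u : ℝ) : ℝ :=
  ldet (1 + ((u⁻¹ : ℝ) : ℂ) • A) - tr A * Real.log (1 + u⁻¹)

lemma entk_eq {A : Matrix n n ℂ} (hA : A.PosSemidef) {u : ℝ} (hu : 0 < u) :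
    entk A u = ∑ i, kap (ev A i) u := by
  unfold entk kap
  rw [ldet_one_add hA (inv_pos.mpr hu).le, tr_eq_sum hA.1, Finset.sum_sub_distrib, Finset.sum_mul]

lemma entk_spec {A : Matrix n n ℂ} (hA : A.PosSemidef) :
    IntegrableOn (entk A) (Ioi 0) ∧ ∫ u in Ioi (0 : ℝ), entk A u = vnEntropy A := by
  have h := kap_sum_spec (ev_nonneg hA)
  refine ⟨h.1.congr_fun (fun u hu => (entk_eq hA hu).symm) measurableSet_Ioi, ?_⟩
  rw [setIntegral_congr_fun measurableSet_Ioi (fun u hu => entk_eq hA hu), h.2, vn_eq hA.1]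

lemma vn_eq_sum {ι : Type} [Fintype ι] {A : Matrix n n ℂ} (hA : A.PosSemidef) {d : ι → ℝ}
    (hd : ∀ i, 0 ≤ d i)
    (hdet : ∀ a : ℝ, 0 < a → det (1 + (a : ℂ) • A) = ((∏ i, (1 + a * d i) : ℝ) : ℂ))
    (htr : tr A = ∑ i, d i) : vnEntropy A = ∑ i, Real.negMulLog (d i) := by
  rw [← (entk_spec hA).2, ← (kap_sum_spec hd).2]
  refine setIntegral_congr_fun measurableSet_Ioi fun u hu => ?_
  have hu : 0 < u⁻¹ := inv_pos.mpr hu
  simp only [entk, kap]
  rw [ldet_of_det (fun i => by have := hd i; positivity) (hdet _ hu), htr, Finset.sum_sub_distrib,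
    Finset.sum_mul]

lemma vn_congr {m : Type} [Fintype m] [DecidableEq m] {A : Matrix n n ℂ} {B : Matrix m m ℂ}
    (hA : A.PosSemidef) (hB : B.PosSemidef)
    (hdet : ∀ a : ℝ, 0 < a → det (1 + (a : ℂ) • A) = det (1 + (a : ℂ) • B))
    (htr : tr A = tr B) : vnEntropy A = vnEntropy B := by
  rw [vn_eq hB.1]
  exact vn_eq_sum hA (ev_nonneg hB) (fun a ha => by rw [hdet a ha, det_one_add hB.1])
    (by rw [htr, tr_eq_sum hB.1])

lemma vn_zero : vnEntropy (0 : Matrix n n ℂ) = 0 := by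
  rw [vn_eq_sum (ι := Empty) PosSemidef.zero (d := fun _ => 0) (fun i => le_rfl)
    (fun a _ => by simp) (by simp [tr])]
  simp

lemma tr_submatrix {m : Type} [Fintype m] [DecidableEq m] (A : Matrix n n ℂ) (e : m ≃ n) :
    tr (A.submatrix e e) = tr A := by
  unfold tr trace
  congr 1
  exact Equiv.sum_comp e (fun i => A i i)

lemma vn_submatrix {m : Type} [Fintype m] [DecidableEq m] {A : Matrix n n ℂ} (hA : A.PosSemidef)
    (e : m ≃ n) : vnEntropy (A.submatrix e e) = vnEntropy A := by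
  refine vn_congr (hA.submatrix e) hA (fun a _ => ?_) (tr_submatrix A e)
  rw [← det_submatrix_equiv_self e (1 + (a : ℂ) • A)]
  congr 1
  ext i j; simp [one_apply]

lemma vn_mul_comm {m : Type} [Fintype m] [DecidableEq m] (V : Matrix m n ℂ) :
    vnEntropy (V * Vᴴ) = vnEntropy (Vᴴ * V) := by
  refine vn_congr (posSemidef_self_mul_conjTranspose V) (posSemidef_conjTranspose_mul_self V)
    (fun a _ => ?_) (by unfold tr; rw [trace_mul_comm])
  rw [← Matrix.smul_mul, det_one_add_mul_comm, Matrix.mul_smul]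

lemma vn_conj {A U : Matrix n n ℂ} (hA : A.PosSemidef) (hU : Uᴴ * U = 1) :
    vnEntropy (U * A * Uᴴ) = vnEntropy A := by
  refine vn_congr (hA.mul_mul_conjTranspose_same U) hA (fun a _ => ?_) ?_
  · rw [← Matrix.smul_mul, det_one_add_mul_comm, Matrix.mul_smul, ← Matrix.mul_assoc, hU,
      Matrix.one_mul]
  · unfold tr; rw [trace_mul_comm, ← Matrix.mul_assoc, hU, Matrix.one_mul]

lemma psd_smul {A : Matrix n n ℂ} (hA : A.PosSemidef) {c : ℝ} (hc : 0 ≤ c) :
    ((c : ℂ) • A).PosSemidef := hA.smul (by exact_mod_cast hc)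

lemma vn_smul {A : Matrix n n ℂ} (hA : A.PosSemidef) {c : ℝ} (hc : 0 ≤ c) :
    vnEntropy ((c : ℂ) • A) = c * vnEntropy A + tr A * Real.negMulLog c := by
  refine (vn_eq_sum (psd_smul hA hc) (d := fun i => c * ev A i)
    (fun i => mul_nonneg hc (ev_nonneg hA i)) (fun a _ => ?_) ?_).trans ?_
  rotate_right
  · simp only [Real.negMulLog_mul, Finset.sum_add_distrib, ← Finset.sum_mul, ← Finset.mul_sum]
    rw [vn_eq hA.1, tr_eq_sum hA.1]; ring
  · rw [smul_smul, ← Complex.ofReal_mul, det_one_add hA.1]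
    simp only [mul_assoc]
  · rw [tr_smul, tr_eq_sum hA.1, Finset.mul_sum]

lemma tr_fromBlocks {m : Type} [Fintype m] [DecidableEq m] (A : Matrix n n ℂ) (B : Matrix n m ℂ)
    (C : Matrix m n ℂ) (D : Matrix m m ℂ) : tr (fromBlocks A B C D) = tr A + tr D := by
  simp [tr, trace, Fintype.sum_sum_type]

lemma psd_fromBlocks_diag {m : Type} [Fintype m] [DecidableEq m] {A : Matrix n n ℂ}
    {D : Matrix m m ℂ} (hA : A.PosSemidef) (hD : D.PosSemidef) :
    (fromBlocks A 0 0 D).PosSemidef := by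
  obtain ⟨P, rfl⟩ := psd_factor hA
  obtain ⟨Q, rfl⟩ := psd_factor hD
  have : fromBlocks (Pᴴ * P) 0 0 (Qᴴ * Q) = (fromBlocks P 0 0 Q)ᴴ * fromBlocks P 0 0 Q := by
    simp [fromBlocks_conjTranspose, fromBlocks_multiply]
  rw [this]; exact posSemidef_conjTranspose_mul_self _

lemma vn_fromBlocks_diag {m : Type} [Fintype m] [DecidableEq m] {A : Matrix n n ℂ}
    {D : Matrix m m ℂ} (hA : A.PosSemidef) (hD : D.PosSemidef) :
    vnEntropy (fromBlocks A 0 0 D) = vnEntropy A + vnEntropy D := by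
  refine (vn_eq_sum (psd_fromBlocks_diag hA hD) (d := Sum.elim (ev A) (ev D)) ?_
    (fun a _ => ?_) ?_).trans ?_
  rotate_right
  · rw [Fintype.sum_sum_type, vn_eq hA.1, vn_eq hD.1]; simp
  · rintro (i | i)
    · exact ev_nonneg hA i
    · exact ev_nonneg hD i
  · have : 1 + (a : ℂ) • fromBlocks A 0 0 D = fromBlocks (1 + (a : ℂ) • A) 0 0 (1 + (a : ℂ) • D) := by
      rw [← fromBlocks_one, fromBlocks_smul, fromBlocks_add]; simp
    rw [this, det_fromBlocks_zero₂₁, det_one_add hA.1, det_one_add hD.1, Fintype.prod_sum_type]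
    simp
  · rw [tr_fromBlocks, tr_eq_sum hA.1, tr_eq_sum hD.1, Fintype.sum_sum_type]; simp

lemma vn_kronecker {m : Type} [Fintype m] [DecidableEq m] {A : Matrix n n ℂ}
    {D : Matrix m m ℂ} (hA : A.PosSemidef) (hD : D.PosSemidef) :
    vnEntropy (A ⊗ₖ D) = tr D * vnEntropy A + tr A * vnEntropy D := by
  refine (vn_eq_sum (hA.kronecker hD) (d := fun p : n × m => ev A p.1 * ev D p.2)
    (fun p => mul_nonneg (ev_nonneg hA _) (ev_nonneg hD _)) (fun a _ => ?_) ?_).trans ?_
  rotate_right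
  · rw [Fintype.sum_prod_type, vn_eq hA.1, vn_eq hD.1, tr_eq_sum hA.1, tr_eq_sum hD.1]
    simp only [Real.negMulLog_mul, Finset.sum_add_distrib, ← Finset.sum_mul, ← Finset.mul_sum]
  · have e : A ⊗ₖ D = (eU A ⊗ₖ eU D) * diagonal (fun p : n × m => ((ev A p.1 * ev D p.2 : ℝ) : ℂ)) *
        (eU A ⊗ₖ eU D)ᴴ := by
      conv_lhs => rw [← fc_id hA.1, ← fc_id hD.1]
      unfold fc
      rw [mul_kronecker_mul, mul_kronecker_mul, diagonal_kronecker_diagonal, conjTranspose_kronecker]
      simp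
    have hU : (eU A ⊗ₖ eU D)ᴴ * (eU A ⊗ₖ eU D) = 1 := by
      rw [conjTranspose_kronecker, ← mul_kronecker_mul, eU_mul', eU_mul', one_kronecker_one]
    rw [e, ← Matrix.smul_mul, det_one_add_mul_comm, Matrix.mul_smul, ← Matrix.mul_assoc, hU,
      Matrix.one_mul, ← diagonal_one, ← diagonal_smul, diagonal_add, det_diagonal]
    simp
  · unfold tr
    rw [trace_kronecker, trace_eq_tr hA, trace_eq_tr hD, tr_eq_sum hA.1, tr_eq_sum hD.1,
      ← Complex.ofReal_mul, Complex.ofReal_re, Finset.sum_mul_sum, Fintype.sum_prod_type]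

/-- homogeneous entropy `tr A * S (A / tr A)` -/
noncomputable def hent (A : Matrix n n ℂ) : ℝ := vnEntropy A - Real.negMulLog (tr A)

lemma hent_smul {A : Matrix n n ℂ} (hA : A.PosSemidef) {c : ℝ} (hc : 0 ≤ c) :
    hent ((c : ℂ) • A) = c * hent A := by
  unfold hent
  rw [vn_smul hA hc, tr_smul, Real.negMulLog_mul]; ring

lemma hent_of_tr_one {A : Matrix n n ℂ} (h : tr A = 1) : hent A = vnEntropy A := by
  simp [hent, h]

end basic

end Crest.Agent.R341
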