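import Crest.Agent.R341.Path3

/-!
Row 341: the key entropy inequality for the generalized amplitude-damping map on blocks.
-/

set_option autoImplicit false
set_option linter.unusedSectionVars false

open Matrix
open scoped ComplexOrder MatrixOrder Kronecker

namespace Crest.Agent.R341

open Crest.Agent.R342 Crest.Quantum

variable {m n k : Type} [Fintype m] [Fintype n] [Fintype k] [DecidableEq m] [DecidableEq n]
  [DecidableEq k]

lemma hent_zero : hent (0 : Matrix n n ℂ) = 0 := by simp [hent, vn_zero, tr_zero]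

lemma E2_zero (t : ℝ) : E2 t 0 = 0 := by simp [E2]

lemma E2_mul (c s t : ℝ) : E2 (c * s) (c * t) = c * E2 s t := by
  unfold E2
  rw [← mul_add]
  simp only [Real.negMulLog_mul]; ring

/-- concavity of the entropy -/
theorem hent_add {A B : Matrix n n ℂ} (hA : A.PosSemidef) (hB : B.PosSemidef) :
    hent A + hent B ≤ hent (A + B) := by
  obtain ⟨V, rfl⟩ := psd_factor hA
  have h := path3 V (T := 0) (S := B) (τ := Vᴴ * V + B) PosSemidef.zero hB (hA.add hB)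
    (fun c => ?_) (by rw [tr_add, tr_zero, add_zero]) (m₁ := tr (Vᴴ * V + B)) (m₂ := 0)
    (tr_nonneg (hA.add hB)) le_rfl (add_zero _) (by rw [tr_zero, mul_zero, mul_zero])
  · rwa [hent_zero, E2_zero, add_zero, add_zero] at h
  · rw [smul_zero, add_zero, det_fromBlocks_one₁₁]
    congr 1
    rw [Matrix.neg_mul, sub_neg_eq_add, Matrix.smul_mul, Matrix.mul_smul, smul_smul, smul_add]
    push_cast
    rw [sq]; abel

lemma det_three (V : Matrix m n ℂ) (W : Matrix m k ℂ) (S : Matrix n n ℂ) (c : ℝ) :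
    det (1 + ((c ^ 2 : ℝ) : ℂ) • fromBlocks (Vᴴ * V + S) (Vᴴ * W) (Wᴴ * V) (Wᴴ * W)) =
      det (fromBlocks (1 + ((c ^ 2 : ℝ) : ℂ) • (W * Wᴴ)) ((c : ℂ) • V) (-((c : ℂ) • Vᴴ))
        (1 + ((c ^ 2 : ℝ) : ℂ) • S)) := by
  have hcc : (c : ℂ) * c = ((c ^ 2 : ℝ) : ℂ) := by push_cast; ring
  set G : Matrix (m ⊕ (n ⊕ k)) (m ⊕ (n ⊕ k)) ℂ :=
    fromBlocks 1 (fromCols ((c : ℂ) • V) ((c : ℂ) • W))
      (fromRows (-((c : ℂ) • Vᴴ)) (-((c : ℂ) • Wᴴ)))
      (fromBlocks (1 + ((c ^ 2 : ℝ) : ℂ) • S) 0 0 1) with hG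
  set G' : Matrix ((m ⊕ n) ⊕ k) ((m ⊕ n) ⊕ k) ℂ :=
    fromBlocks (fromBlocks 1 ((c : ℂ) • V) (-((c : ℂ) • Vᴴ)) (1 + ((c ^ 2 : ℝ) : ℂ) • S))
      (fromRows ((c : ℂ) • W) 0) (fromCols (-((c : ℂ) • Wᴴ)) 0) 1 with hG'
  have e : G' = G.submatrix (Equiv.sumAssoc m n k) (Equiv.sumAssoc m n k) := by
    ext ((i | i) | i) ((j | j) | j) <;> simp [hG, hG']
  have e1 : det G = det (1 + ((c ^ 2 : ℝ) : ℂ) •
      fromBlocks (Vᴴ * V + S) (Vᴴ * W) (Wᴴ * V) (Wᴴ * W)) := by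
    rw [hG, det_fromBlocks_one₁₁, fromRows_mul_fromCols, ← fromBlocks_one, fromBlocks_smul,
      fromBlocks_add, sub_eq_add_neg, fromBlocks_neg, fromBlocks_add]
    simp only [Matrix.neg_mul, neg_neg, Matrix.smul_mul, Matrix.mul_smul, smul_smul, hcc, smul_add,
      smul_neg]
    congr 2
    abel
  have e2 : det G' = det (fromBlocks (1 + ((c ^ 2 : ℝ) : ℂ) • (W * Wᴴ)) ((c : ℂ) • V)
      (-((c : ℂ) • Vᴴ)) (1 + ((c ^ 2 : ℝ) : ℂ) • S)) := by
    rw [hG', det_fromBlocks_one₂₂, fromRows_mul_fromCols, sub_eq_add_neg, fromBlocks_neg,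
      fromBlocks_add]
    simp only [Matrix.mul_neg, neg_neg, Matrix.smul_mul, Matrix.mul_smul, smul_smul, hcc,
      Matrix.mul_zero, Matrix.zero_mul, neg_zero, add_zero, smul_zero]
  rw [← e1, ← e2, e, det_submatrix_equiv_self]

lemma hent_mul_comm (V : Matrix m n ℂ) : hent (V * Vᴴ) = hent (Vᴴ * V) := by
  unfold hent tr
  rw [vn_mul_comm, trace_mul_comm]

lemma exists_cols {X : Matrix n n ℂ} {Y : Matrix n k ℂ} {Y' : Matrix k n ℂ} {T : Matrix k k ℂ}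
    (hM : (fromBlocks X Y Y' T).PosSemidef) :
    ∃ (V : Matrix (n ⊕ k) n ℂ) (W : Matrix (n ⊕ k) k ℂ),
      X = Vᴴ * V ∧ Y = Vᴴ * W ∧ Y' = Wᴴ * V ∧ T = Wᴴ * W := by
  obtain ⟨B, hB⟩ := psd_factor hM
  refine ⟨B.toCols₁, B.toCols₂, ?_⟩
  rw [← fromCols_toCols B, conjTranspose_fromCols_eq_fromRows_conjTranspose,
    fromRows_mul_fromCols, fromBlocks_inj] at hB
  exact hB

lemma psd_block₁ {X : Matrix n n ℂ} {Y : Matrix n k ℂ} {Y' : Matrix k n ℂ} {T : Matrix k k ℂ}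
    (hM : (fromBlocks X Y Y' T).PosSemidef) : X.PosSemidef := by
  obtain ⟨V, W, rfl, -, -, -⟩ := exists_cols hM
  exact posSemidef_conjTranspose_mul_self V

lemma psd_block₂ {X : Matrix n n ℂ} {Y : Matrix n k ℂ} {Y' : Matrix k n ℂ} {T : Matrix k k ℂ}
    (hM : (fromBlocks X Y Y' T).PosSemidef) : T.PosSemidef := by
  obtain ⟨V, W, -, -, -, rfl⟩ := exists_cols hM
  exact posSemidef_conjTranspose_mul_self W

lemma psd_add_block₁ {X S : Matrix n n ℂ} {Y : Matrix n k ℂ} {Y' : Matrix k n ℂ}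
    {T : Matrix k k ℂ} (hM : (fromBlocks X Y Y' T).PosSemidef) (hS : S.PosSemidef) :
    (fromBlocks (X + S) Y Y' T).PosSemidef := by
  have := hM.add (psd_fromBlocks_diag hS (PosSemidef.zero (n := k)))
  rwa [fromBlocks_add, add_zero, add_zero, add_zero] at this

lemma psd_add_block₂ {X : Matrix n n ℂ} {Y : Matrix n k ℂ} {Y' : Matrix k n ℂ}
    {T S : Matrix k k ℂ} (hM : (fromBlocks X Y Y' T).PosSemidef) (hS : S.PosSemidef) :
    (fromBlocks X Y Y' (T + S)).PosSemidef := by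
  have := hM.add (psd_fromBlocks_diag (PosSemidef.zero (n := n)) hS)
  rwa [fromBlocks_add, add_zero, add_zero, add_zero] at this

theorem path3_blocks {X S : Matrix n n ℂ} {Y : Matrix n k ℂ} {Y' : Matrix k n ℂ}
    {T : Matrix k k ℂ} (hM : (fromBlocks X Y Y' T).PosSemidef) (hS : S.PosSemidef)
    {m₁ m₂ : ℝ} (h₁ : 0 ≤ m₁) (h₂ : 0 ≤ m₂) (hsum : m₁ + m₂ = tr X + tr S + tr T)
    (hprod : m₁ * m₂ = tr S * tr T) :
    hent X + hent S + hent T + E2 m₁ m₂ ≤ hent (fromBlocks (X + S) Y Y' T) := by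
  have hτ := psd_add_block₁ hM hS
  obtain ⟨V, W, rfl, rfl, rfl, rfl⟩ := exists_cols hM
  have ht : tr (W * Wᴴ) = tr (Wᴴ * W) := by unfold tr; rw [trace_mul_comm]
  have h := path3 V (posSemidef_self_mul_conjTranspose W) hS hτ (det_three V W S)
    (by rw [tr_fromBlocks, tr_add, ht]) h₁ h₂ (by rw [tr_fromBlocks, tr_add, hsum])
    (by rw [ht, hprod])
  rwa [hent_mul_comm] at h

lemma hent_submatrix {A : Matrix n n ℂ} (hA : A.PosSemidef) (e : m ≃ n) :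
    hent (A.submatrix e e) = hent A := by
  unfold hent; rw [vn_submatrix hA, tr_submatrix]

lemma psd_swap {X : Matrix n n ℂ} {Y : Matrix n k ℂ} {Y' : Matrix k n ℂ}
    {T : Matrix k k ℂ} (hM : (fromBlocks X Y Y' T).PosSemidef) :
    (fromBlocks T Y' Y X).PosSemidef := by
  rw [← fromBlocks_submatrix_sum_swap_sum_swap]
  exact hM.submatrix _

theorem path3_blocks' {X : Matrix n n ℂ} {Y : Matrix n k ℂ} {Y' : Matrix k n ℂ}
    {T S : Matrix k k ℂ} (hM : (fromBlocks X Y Y' T).PosSemidef) (hS : S.PosSemidef)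
    {m₁ m₂ : ℝ} (h₁ : 0 ≤ m₁) (h₂ : 0 ≤ m₂) (hsum : m₁ + m₂ = tr T + tr S + tr X)
    (hprod : m₁ * m₂ = tr S * tr X) :
    hent T + hent S + hent X + E2 m₁ m₂ ≤ hent (fromBlocks X Y Y' (T + S)) := by
  have h := path3_blocks (psd_swap hM) hS h₁ h₂ hsum hprod
  have e := hent_submatrix (psd_add_block₂ hM hS) (Equiv.sumComm k n)
  rw [Equiv.sumComm_apply, fromBlocks_submatrix_sum_swap_sum_swap] at e
  rwa [e] at h

lemma psd_scale {X : Matrix n n ℂ} {Y : Matrix n k ℂ} {Y' : Matrix k n ℂ}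
    {Z : Matrix k k ℂ} (hM : (fromBlocks X Y Y' Z).PosSemidef) {α δ r : ℝ} (hα : 0 ≤ α)
    (hδ : 0 ≤ δ) (hr : 0 ≤ r) (h : r ^ 2 = α * δ) :
    (fromBlocks ((α : ℂ) • X) ((r : ℂ) • Y) ((r : ℂ) • Y') ((δ : ℂ) • Z)).PosSemidef := by
  have h1 := hM.conjTranspose_mul_mul_same
    (fromBlocks (((√α : ℝ) : ℂ) • (1 : Matrix n n ℂ)) 0 0 (((√δ : ℝ) : ℂ) • (1 : Matrix k k ℂ)))
  have e1 : √α * √α = α := Real.mul_self_sqrt hα
  have e2 : √δ * √δ = δ := Real.mul_self_sqrt hδ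
  have e3 : √α * √δ = r := by rw [← Real.sqrt_mul hα, ← h, Real.sqrt_sq hr]
  have e4 : √δ * √α = r := by rw [mul_comm, e3]
  rw [fromBlocks_conjTranspose, fromBlocks_multiply, fromBlocks_multiply] at h1
  simpa [conjTranspose_smul, smul_smul, e1, e2, e3, e4] using h1

/-- pinching does not decrease the entropy -/
theorem vn_le_blocks {A : Matrix n n ℂ} {B : Matrix n k ℂ} {C : Matrix k n ℂ}
    {D : Matrix k k ℂ} (hM : (fromBlocks A B C D).PosSemidef) :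
    vnEntropy (fromBlocks A B C D) ≤ vnEntropy A + vnEntropy D := by
  set U : Matrix (n ⊕ k) (n ⊕ k) ℂ := fromBlocks 1 0 0 (-1) with hU
  have hUU : Uᴴ * U = 1 := by
    rw [hU, fromBlocks_conjTranspose, fromBlocks_multiply, ← fromBlocks_one]; simp
  have e : U * fromBlocks A B C D * Uᴴ = fromBlocks A (-B) (-C) D := by
    rw [hU, fromBlocks_conjTranspose, fromBlocks_multiply, fromBlocks_multiply]; simp
  have h1 := vn_conj hM hUU
  have h2 := hM.mul_mul_conjTranspose_same U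
  rw [e] at h1 h2
  have h3 := hent_add hM h2
  have hQ := psd_fromBlocks_diag (psd_block₁ hM) (psd_block₂ hM)
  have e2 : fromBlocks A B C D + fromBlocks A (-B) (-C) D = ((2 : ℝ) : ℂ) • fromBlocks A 0 0 D := by
    rw [fromBlocks_add, fromBlocks_smul]; simp [two_smul]
  rw [e2, hent_smul hQ (by norm_num)] at h3
  unfold hent at h3
  rw [h1, vn_fromBlocks_diag (psd_block₁ hM) (psd_block₂ hM)] at h3
  simp only [tr_fromBlocks] at h3
  linarith

/-- subadditivity in the form used for the Holevo quantity -/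
theorem vn_le_subadd {A B C D : Matrix n n ℂ} (hM : (fromBlocks A B C D).PosSemidef)
    (h1 : tr A + tr D = 1) :
    vnEntropy (fromBlocks A B C D) ≤ Real.binEntropy (tr D) + vnEntropy (A + D) := by
  have h2 := vn_le_blocks hM
  have h3 := hent_add (psd_block₁ hM) (psd_block₂ hM)
  rw [hent_of_tr_one (A := A + D) (by rw [tr_add, h1])] at h3
  unfold hent at h3
  rw [Real.binEntropy_eq_negMulLog_add_negMulLog_one_sub, show 1 - tr D = tr A by linarith]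
  linarith

lemma exists_split {a b c d r x z : ℝ} (ha : 0 ≤ a) (hb : 0 ≤ b) (hc : 0 ≤ c) (hd : 0 ≤ d)
    (hac : a + c = 1) (hbd : b + d = 1) (hr : r ^ 2 = a * d - b * c) (hx : 0 ≤ x) (hz : 0 ≤ z)
    (hxz : x + z = 1) :
    ∃ θ α₁ α₂ δ₁ δ₂ : ℝ, 0 ≤ θ ∧ θ ≤ 1 ∧ 0 ≤ α₁ ∧ 0 ≤ α₂ ∧ 0 ≤ δ₁ ∧ 0 ≤ δ₂ ∧ α₁ + α₂ = a ∧
      δ₁ + δ₂ = d ∧ (θ * r) ^ 2 = α₁ * δ₁ ∧ ((1 - θ) * r) ^ 2 = α₂ * δ₂ ∧
      δ₁ * z + c * x + α₁ * x = θ ∧ α₂ * x + b * z + δ₂ * z = 1 - θ ∧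
      c * x * (α₁ * x) = θ ^ 2 * (a * c * x ^ 2 + 2 * b * c * x * z + b * d * z ^ 2) ∧
      b * z * (δ₂ * z) = (1 - θ) ^ 2 * (a * c * x ^ 2 + 2 * b * c * x * z + b * d * z ^ 2) := by
  rcases hc.eq_or_lt with h0 | hc'
  · subst h0
    have : a = 1 := by linarith
    subst this
    refine ⟨0, 0, 1, 0, d, le_rfl, zero_le_one, le_rfl, zero_le_one, le_rfl, hd, by ring, by ring,
      by ring, by rw [sub_zero, one_mul, hr]; ring, by ring, ?_, by ring, by ring⟩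
    linear_combination hxz + z * hbd
  rcases hb.eq_or_lt with h0 | hb'
  · subst h0
    have : d = 1 := by linarith
    subst this
    refine ⟨1, a, 0, 1, 0, zero_le_one, le_rfl, ha, le_rfl, zero_le_one, le_rfl, by ring, by ring,
      by rw [one_mul, hr]; ring, by ring, ?_, by ring, by ring, by ring⟩
    linear_combination hxz + x * hac
  have had : 0 < a * d := by nlinarith [sq_nonneg r, mul_pos hb' hc']
  have ha' : 0 < a := by
    rcases ha.eq_or_lt with h | h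
    · rw [← h] at had; simp at had
    · exact h
  have hd' : 0 < d := by
    rcases hd.eq_or_lt with h | h
    · rw [← h] at had; simp at had
    · exact h
  set v := a * c * x ^ 2 + 2 * b * c * x * z + b * d * z ^ 2 with hv
  have hvp : 0 < v := by
    rcases hx.eq_or_lt with h | h
    · have hz1 : z = 1 := by linarith
      rw [hv, ← h, hz1]; simp; positivity
    · have : 0 < a * c * x ^ 2 := by positivity
      have : 0 ≤ 2 * b * c * x * z + b * d * z ^ 2 := by positivity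
      linarith
  set s₀ := a * x + b * z with hs₀
  set s₁ := c * x + d * z with hs₁
  have hs₀0 : 0 ≤ s₀ := by positivity
  have hs₁0 : 0 ≤ s₁ := by positivity
  have hs : s₀ + s₁ = 1 := by
    rw [hs₀, hs₁]; linear_combination x * hac + z * hbd + hxz
  have hθ : 1 - c * x * s₀ / v = b * z * s₁ / v := by
    field_simp
    rw [hv, hs₀, hs₁]; ring
  have hv2 : v = s₀ * s₁ - r ^ 2 * x * z := by rw [hr, hv, hs₀, hs₁]; ring
  refine ⟨c * x * s₀ / v, c * s₀ ^ 2 / v, b * r ^ 2 * z ^ 2 / v, c * r ^ 2 * x ^ 2 / v,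
    b * s₁ ^ 2 / v, by positivity, ?_, by positivity, by positivity, by positivity, by positivity,
    ?_, ?_, ?_, ?_, ?_, ?_, ?_, ?_⟩
  · have : 0 ≤ b * z * s₁ / v := by positivity
    linarith
  · field_simp
    rw [hr, hv, hs₀]; ring
  · field_simp
    rw [hr, hv, hs₁]; ring
  · field_simp
  · rw [hθ]; field_simp
  · field_simp
    rw [hv2]
    linear_combination (x * s₀) * hs
  · rw [hθ]; field_simp
    rw [hv2]
    linear_combination (z * s₁) * hs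
  · field_simp
  · rw [hθ]; field_simp

theorem key_blocks {X Y Y' Z : Matrix n n ℂ} (hM : (fromBlocks X Y Y' Z).PosSemidef)
    {a b c d r : ℝ} (ha : 0 ≤ a) (hb : 0 ≤ b) (hc : 0 ≤ c) (hd : 0 ≤ d)
    (hac : a + c = 1) (hbd : b + d = 1) (hr0 : 0 ≤ r) (hr : r ^ 2 = a * d - b * c)
    (hxz : tr X + tr Z = 1) {μ₁ μ₂ : ℝ} (h₁ : 0 ≤ μ₁) (h₂ : 0 ≤ μ₂) (hsum : μ₁ + μ₂ = 1)
    (hprod : μ₁ * μ₂ = a * c * tr X ^ 2 + 2 * b * c * tr X * tr Z + b * d * tr Z ^ 2) :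
    (fromBlocks ((a : ℂ) • X + (b : ℂ) • Z) ((r : ℂ) • Y) ((r : ℂ) • Y')
      ((c : ℂ) • X + (d : ℂ) • Z)).PosSemidef ∧
    hent X + hent Z + (Real.negMulLog μ₁ + Real.negMulLog μ₂) ≤
      vnEntropy (fromBlocks ((a : ℂ) • X + (b : ℂ) • Z) ((r : ℂ) • Y) ((r : ℂ) • Y')
        ((c : ℂ) • X + (d : ℂ) • Z)) := by
  have hX := psd_block₁ hM
  have hZ := psd_block₂ hM
  obtain ⟨θ, α₁, α₂, δ₁, δ₂, hθ0, hθ1, hα₁, hα₂, hδ₁, hδ₂, eα, eδ, r₁, r₂, t₁, t₂, p₁, p₂⟩ :=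
    exists_split ha hb hc hd hac hbd hr (tr_nonneg hX) (tr_nonneg hZ) hxz
  have hθ' : 0 ≤ 1 - θ := by linarith
  have M₁ := psd_scale hM hα₁ hδ₁ (mul_nonneg hθ0 hr0) r₁
  have M₂ := psd_scale hM hα₂ hδ₂ (mul_nonneg hθ' hr0) r₂
  have k₁ := path3_blocks' M₁ (psd_smul hX hc) (mul_nonneg hθ0 h₁) (mul_nonneg hθ0 h₂)
    (by simp only [tr_smul]; rw [t₁, ← mul_add, hsum, mul_one])
    (by simp only [tr_smul]; rw [p₁, ← hprod]; ring)
  have k₂ := path3_blocks M₂ (psd_smul hZ hb) (mul_nonneg hθ' h₁) (mul_nonneg hθ' h₂)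
    (by simp only [tr_smul]; rw [t₂, ← mul_add, hsum, mul_one])
    (by simp only [tr_smul]; rw [p₂, ← hprod]; ring)
  have P₁ := psd_add_block₂ M₁ (psd_smul hX hc)
  have P₂ := psd_add_block₁ M₂ (psd_smul hZ hb)
  have k₃ := hent_add P₁ P₂
  have e : fromBlocks ((α₁ : ℂ) • X) (((θ * r : ℝ) : ℂ) • Y) (((θ * r : ℝ) : ℂ) • Y')
        ((δ₁ : ℂ) • Z + (c : ℂ) • X) +
      fromBlocks ((α₂ : ℂ) • X + (b : ℂ) • Z) ((((1 - θ) * r : ℝ) : ℂ) • Y)
        ((((1 - θ) * r : ℝ) : ℂ) • Y') ((δ₂ : ℂ) • Z) =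
      fromBlocks ((a : ℂ) • X + (b : ℂ) • Z) ((r : ℂ) • Y) ((r : ℂ) • Y')
        ((c : ℂ) • X + (d : ℂ) • Z) := by
    rw [fromBlocks_add, ← eα, ← eδ]
    push_cast
    congr 1 <;> module
  refine ⟨e ▸ P₁.add P₂, ?_⟩
  rw [e, hent_of_tr_one (A := fromBlocks ((a : ℂ) • X + (b : ℂ) • Z) _ _ _)] at k₃
  · rw [hent_smul hX hα₁, hent_smul hX hc, hent_smul hZ hδ₁, E2_mul] at k₁
    rw [hent_smul hX hα₂, hent_smul hZ hb, hent_smul hZ hδ₂, E2_mul] at k₂
    have e1 : E2 μ₁ μ₂ = Real.negMulLog μ₁ + Real.negMulLog μ₂ := by simp [E2, hsum]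
    have e2 : α₁ * hent X + c * hent X + α₂ * hent X = hent X := by
      linear_combination (hent X) * eα + (hent X) * hac
    have e3 : δ₁ * hent Z + b * hent Z + δ₂ * hent Z = hent Z := by
      linear_combination (hent Z) * eδ + (hent Z) * hbd
    rw [← e1]
    linarith
  · simp only [tr_fromBlocks, tr_add, tr_smul]
    linear_combination (tr X) * hac + (tr Z) * hbd + hxz

end Crest.Agent.R341
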