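import Crest.Agent.R342.FC

/-!
Row 341: the function `Δ ↦ log |det (Δ + N)| - log det Δ` lies above its tangent planes on
positive definite matrices, for a fixed skew-Hermitian `N`.
-/

set_option autoImplicit false
set_option linter.unusedSectionVars false

open Matrix
open scoped ComplexOrder MatrixOrder

namespace Crest.Agent.R341

open Crest.Agent.R342

variable {n : Type} [Fintype n] [DecidableEq n]

/-- `log |det M|` -/
noncomputable def ldet (M : Matrix n n ℂ) : ℝ := Real.log ‖M.det‖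

lemma hasDerivAt_det_one (K : Matrix n n ℂ) :
    HasDerivAt (fun z : ℂ => det (1 + z • K)) (trace K) 0 := by
  have e : (fun z : ℂ => det (1 + z • K)) = fun z : ℂ => 1 + trace K * z +
      (det (1 + (Polynomial.X : Polynomial ℂ) • K.map Polynomial.C)).divX.divX.eval z * z ^ 2 := by
    funext z; exact det_one_add_smul z K
  rw [e]
  have h1 : HasDerivAt (fun z : ℂ => 1 + trace K * z) (trace K) 0 := by
    simpa using ((hasDerivAt_id (0 : ℂ)).const_mul (trace K)).const_add 1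
  have h2 := ((det (1 + (Polynomial.X : Polynomial ℂ) • K.map Polynomial.C)).divX.divX.hasDerivAt
    (0 : ℂ)).mul (hasDerivAt_pow 2 (0 : ℂ))
  exact (h1.add h2).congr_deriv (by simp)

lemma hasDerivAt_det (M H : Matrix n n ℂ) (t : ℝ) (hM : IsUnit (M + (t : ℂ) • H).det) :
    HasDerivAt (fun s : ℝ => det (M + (s : ℂ) • H))
      (det (M + (t : ℂ) • H) * trace ((M + (t : ℂ) • H)⁻¹ * H)) t := by
  set P := M + (t : ℂ) • H with hP
  have e : (fun s : ℝ => det (M + (s : ℂ) • H)) =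
      fun s : ℝ => det P * det (1 + ((s : ℂ) - t) • (P⁻¹ * H)) := by
    funext s
    rw [← det_mul, Matrix.mul_add, Matrix.mul_one, Matrix.mul_smul, ← Matrix.mul_assoc,
      mul_nonsing_inv _ hM, Matrix.one_mul, hP, add_assoc, ← add_smul]
    congr 3; ring
  rw [e]
  have h1 : HasDerivAt (fun z : ℂ => det (1 + (z - t) • (P⁻¹ * H))) (trace (P⁻¹ * H)) (t : ℂ) := by
    have h0 := hasDerivAt_det_one (P⁻¹ * H)
    have h2 : HasDerivAt (fun z : ℂ => z - (t : ℂ)) 1 (t : ℂ) := (hasDerivAt_id _).sub_const _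
    have h3 := HasDerivAt.comp_of_eq (t : ℂ) h0 h2 (by simp)
    exact h3.congr_deriv (by simp)
  exact (h1.comp_ofReal).const_mul _

lemma hasDerivAt_log_norm {d : ℝ → ℂ} {d' : ℂ} {t : ℝ} (h : HasDerivAt d d' t) (h0 : d t ≠ 0) :
    HasDerivAt (fun s => Real.log ‖d s‖) (d' / d t).re t := by
  have h1 := h.norm_sq
  have hn : ‖d t‖ ≠ 0 := norm_ne_zero_iff.mpr h0
  have h2 := (h1.log (pow_ne_zero 2 hn)).const_mul (1 / 2 : ℝ)
  have e : (fun s => Real.log ‖d s‖) = fun s => (1 / 2 : ℝ) * Real.log (‖d s‖ ^ 2) := by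
    funext s; rw [Real.log_pow]; push_cast; ring
  rw [e]
  refine h2.congr_deriv ?_
  rw [Complex.div_re, Complex.normSq_eq_norm_sq, Complex.inner]
  simp only [Complex.mul_re, Complex.conj_re, Complex.conj_im]
  field_simp
  ring

lemma hasDerivAt_ldet (M H : Matrix n n ℂ) (t : ℝ) (hM : IsUnit (M + (t : ℂ) • H).det) :
    HasDerivAt (fun s : ℝ => ldet (M + (s : ℂ) • H)) (trace ((M + (t : ℂ) • H)⁻¹ * H)).re t := by
  have h := hasDerivAt_log_norm (hasDerivAt_det M H t hM) hM.ne_zero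
  rw [mul_div_cancel_left₀ _ hM.ne_zero] at h
  exact h

lemma isUnit_det_add_skew {D N : Matrix n n ℂ} (hD : D.PosDef) (hN : Nᴴ = -N) :
    IsUnit (D + N).det := by
  rw [isUnit_iff_ne_zero]
  intro h
  obtain ⟨v, hv, hv0⟩ := exists_mulVec_eq_zero_iff.mpr h
  have h1 := (posDef_iff_dotProduct_mulVec.mp hD).2 hv
  have h2 : star v ⬝ᵥ (D *ᵥ v) + star v ⬝ᵥ (N *ᵥ v) = 0 := by
    rw [← dotProduct_add, ← add_mulVec, hv0, dotProduct_zero]
  have h3 : star (star v ⬝ᵥ (N *ᵥ v)) = -(star v ⬝ᵥ (N *ᵥ v)) := by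
    rw [← star_dotProduct_star, star_star, star_mulVec, hN, ← dotProduct_mulVec, neg_mulVec,
      dotProduct_neg]
  have h4 : (star v ⬝ᵥ (N *ᵥ v)).re = 0 := by
    have := congrArg Complex.re h3
    simp only [Complex.star_def, Complex.conj_re, Complex.neg_re] at this
    linarith
  have h5 := congrArg Complex.re h2
  rw [Complex.add_re, h4, Complex.zero_re] at h5
  have := (Complex.pos_iff.mp h1).1
  linarith

/-- the inverse of `D + N` is a contraction in the metric of `D` -/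
lemma inv_add_skew_le {D N : Matrix n n ℂ} (hD : D.PosDef) (hN : Nᴴ = -N) :
    (D⁻¹ - ((D + N)⁻¹)ᴴ * D * (D + N)⁻¹).PosSemidef := by
  have hu := isUnit_det_add_skew hD hN
  have hDu : IsUnit D.det := (isUnit_iff_isUnit_det _).mp hD.isUnit
  set P := (D + N)⁻¹ with hP
  have h1 : (D + N) * P = 1 := mul_nonsing_inv _ hu
  have h2 : Pᴴ * (D - N) = 1 := by
    have := congrArg conjTranspose h1
    rwa [conjTranspose_mul, conjTranspose_add, hD.1.eq, hN, conjTranspose_one,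
      ← sub_eq_add_neg] at this
  have h3 : Pᴴ * D * P + Pᴴ * D * P = P + Pᴴ := by
    calc Pᴴ * D * P + Pᴴ * D * P = (Pᴴ * (D - N)) * P + Pᴴ * ((D + N) * P) := by
          simp only [Matrix.mul_sub, Matrix.sub_mul, Matrix.mul_add, Matrix.add_mul,
            Matrix.mul_assoc]
          abel
      _ = P + Pᴴ := by rw [h1, h2, Matrix.one_mul, Matrix.mul_one]
  have h4 := hD.posSemidef.conjTranspose_mul_mul_same (P - D⁻¹)
  have h5 : (P - D⁻¹)ᴴ * D * (P - D⁻¹) = D⁻¹ - Pᴴ * D * P := by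
    rw [conjTranspose_sub, hD.inv.1.eq]
    have a1 : D⁻¹ * D = 1 := nonsing_inv_mul _ hDu
    have a2 : D * D⁻¹ = 1 := mul_nonsing_inv _ hDu
    calc (Pᴴ - D⁻¹) * D * (P - D⁻¹)
        = Pᴴ * D * P - Pᴴ * (D * D⁻¹) - (D⁻¹ * D) * P + (D⁻¹ * D) * D⁻¹ := by
          simp only [Matrix.mul_sub, Matrix.sub_mul, Matrix.mul_assoc]
          abel
      _ = Pᴴ * D * P - (P + Pᴴ) + D⁻¹ := by
          rw [a1, a2, Matrix.mul_one, Matrix.one_mul, Matrix.one_mul]; abel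
      _ = D⁻¹ - Pᴴ * D * P := by rw [← h3]; abel
  rwa [h5] at h4

lemma two_re_trace_mul_le {A B : Matrix n n ℂ} (hA : A.PosDef) (hB : B.PosDef)
    (X Y : Matrix n n ℂ) :
    2 * (trace (X * Y)).re ≤ (trace (B⁻¹ * (Xᴴ * A * X))).re + (trace (A⁻¹ * (Yᴴ * B * Y))).re := by
  have hAu : IsUnit A.det := (isUnit_iff_isUnit_det _).mp hA.isUnit
  have hBu : IsUnit B.det := (isUnit_iff_isUnit_det _).mp hB.isUnit
  have a1 : A⁻¹ * A = 1 := nonsing_inv_mul _ hAu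
  have a2 : A * A⁻¹ = 1 := mul_nonsing_inv _ hAu
  have b1 : B⁻¹ * B = 1 := nonsing_inv_mul _ hBu
  have b2 : B * B⁻¹ = 1 := mul_nonsing_inv _ hBu
  have h := tp_nonneg hB.inv.posSemidef
    (hA.posSemidef.conjTranspose_mul_mul_same (X - A⁻¹ * Yᴴ * B))
  have e : B⁻¹ * ((X - A⁻¹ * Yᴴ * B)ᴴ * A * (X - A⁻¹ * Yᴴ * B)) =
      B⁻¹ * (Xᴴ * A * X) - B⁻¹ * (Y * X)ᴴ * B - Y * X + Y * A⁻¹ * Yᴴ * B := by
    rw [conjTranspose_sub, conjTranspose_mul, conjTranspose_mul, conjTranspose_conjTranspose,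
      hA.inv.1.eq, hB.1.eq, conjTranspose_mul]
    calc B⁻¹ * ((Xᴴ - B * (Y * A⁻¹)) * A * (X - A⁻¹ * Yᴴ * B))
        = B⁻¹ * (Xᴴ * A * X) - B⁻¹ * (Xᴴ * (A * A⁻¹) * Yᴴ) * B - (B⁻¹ * B) * Y * (A⁻¹ * A) * X +
          (B⁻¹ * B) * Y * (A⁻¹ * A) * A⁻¹ * Yᴴ * B := by
          simp only [Matrix.mul_sub, Matrix.sub_mul, Matrix.mul_assoc]
          abel
      _ = _ := by simp only [a1, a2, b1, Matrix.mul_one, Matrix.one_mul]
  unfold tp at h
  rw [e, trace_add, trace_sub, trace_sub] at h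
  have e1 : trace (B⁻¹ * (Y * X)ᴴ * B) = star (trace (X * Y)) := by
    rw [trace_mul_comm, ← Matrix.mul_assoc, b2, Matrix.one_mul, trace_conjTranspose,
      trace_mul_comm]
  have e2 : trace (Y * A⁻¹ * Yᴴ * B) = trace (A⁻¹ * (Yᴴ * B * Y)) := by
    simp only [Matrix.mul_assoc]
    rw [trace_mul_comm]
    simp only [Matrix.mul_assoc]
  rw [e1, e2, trace_mul_comm Y X] at h
  simp only [Complex.add_re, Complex.sub_re, Complex.star_def, Complex.conj_re] at h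
  linarith

lemma re_trace_skew_le {A B N H : Matrix n n ℂ} (hA : A.PosDef) (hB : B.PosDef) (hN : Nᴴ = -N)
    (hH : H.IsHermitian) :
    (trace ((A + N)⁻¹ * H * ((B + N)⁻¹ * H))).re ≤ (trace (A⁻¹ * H * (B⁻¹ * H))).re := by
  have h := two_re_trace_mul_le hA hB ((A + N)⁻¹ * H) ((B + N)⁻¹ * H)
  have key : ∀ {C D : Matrix n n ℂ}, C.PosDef → D.PosDef →
      (trace (D⁻¹ * (((C + N)⁻¹ * H)ᴴ * C * ((C + N)⁻¹ * H)))).re ≤
        (trace (D⁻¹ * H * (C⁻¹ * H))).re := by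
    intro C D hC hD
    have h1 := tp_nonneg hD.inv.posSemidef ((inv_add_skew_le hC hN).conjTranspose_mul_mul_same H)
    unfold tp at h1
    rw [conjTranspose_mul, hH.eq]
    rw [hH.eq, Matrix.mul_sub, Matrix.sub_mul, Matrix.mul_sub, trace_sub, Complex.sub_re] at h1
    simp only [Matrix.mul_assoc] at h1 ⊢
    linarith
  have h1 := key hA hB
  have h2 := key hB hA
  rw [trace_mul_comm (B⁻¹ * H)] at h1
  linarith

lemma inv_sub_inv_eq {P Q : Matrix n n ℂ} (hP : IsUnit P.det) (hQ : IsUnit Q.det) :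
    P⁻¹ = Q⁻¹ - P⁻¹ * (P - Q) * Q⁻¹ := by
  rw [Matrix.mul_sub, Matrix.sub_mul, nonsing_inv_mul _ hP, Matrix.mul_assoc,
    mul_nonsing_inv _ hQ]
  simp

/-- tangent-plane inequality -/
theorem ldet_tangent {D₀ D₁ N : Matrix n n ℂ} (h₀ : D₀.PosDef) (h₁ : D₁.PosDef)
    (hN : Nᴴ = -N) :
    ldet (D₀ + N) - ldet D₀ + (trace (((D₀ + N)⁻¹ - D₀⁻¹) * (D₁ - D₀))).re ≤
      ldet (D₁ + N) - ldet D₁ := by
  set H := D₁ - D₀ with hH
  have hHh : H.IsHermitian := h₁.1.sub h₀.1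
  have hpd : ∀ t : ℝ, 0 ≤ t → t ≤ 1 → (D₀ + (t : ℂ) • H).PosDef := by
    intro t h0 h1
    have e : D₀ + (t : ℂ) • H = (1 - t) • D₀ + t • D₁ := by
      rw [hH]; ext i j; simp; ring
    rw [e]
    rcases h0.eq_or_lt with h | h
    · subst h; simpa using h₀
    · exact PosDef.posSemidef_add (h₀.posSemidef.smul (by linarith)) (h₁.smul h)
  have hu : ∀ t : ℝ, 0 ≤ t → t ≤ 1 → IsUnit (D₀ + (t : ℂ) • H).det := fun t h0 h1 =>
    (isUnit_iff_isUnit_det _).mp (hpd t h0 h1).isUnit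
  have ecomm : ∀ t : ℝ, D₀ + N + (t : ℂ) • H = D₀ + (t : ℂ) • H + N := fun t => by abel
  have hu' : ∀ t : ℝ, 0 ≤ t → t ≤ 1 → IsUnit (D₀ + N + (t : ℂ) • H).det := fun t h0 h1 => by
    rw [ecomm]; exact isUnit_det_add_skew (hpd t h0 h1) hN
  set F : ℝ → ℝ := fun t => ldet (D₀ + N + (t : ℂ) • H) - ldet (D₀ + (t : ℂ) • H) with hF
  set F' : ℝ → ℝ := fun t => (trace ((D₀ + N + (t : ℂ) • H)⁻¹ * H)).re -
    (trace ((D₀ + (t : ℂ) • H)⁻¹ * H)).re with hF'
  have hd : ∀ t : ℝ, 0 ≤ t → t ≤ 1 → HasDerivAt F (F' t) t := fun t h0 h1 =>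
    (hasDerivAt_ldet _ _ t (hu' t h0 h1)).sub (hasDerivAt_ldet _ _ t (hu t h0 h1))
  obtain ⟨c, hc, hc'⟩ := exists_hasDerivAt_eq_slope F F' (zero_lt_one' ℝ)
    (fun t ht => (hd t ht.1 ht.2).continuousAt.continuousWithinAt)
    (fun t ht => hd t ht.1.le ht.2.le)
  have e0 : F 0 = ldet (D₀ + N) - ldet D₀ := by simp [hF]
  have e1 : F 1 = ldet (D₁ + N) - ldet D₁ := by
    simp only [hF, hH, Complex.ofReal_one, one_smul]
    congr 2 <;> abel
  have hmono : (trace (((D₀ + N)⁻¹ - D₀⁻¹) * H)).re ≤ F' c := by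
    have u0 : IsUnit D₀.det := (isUnit_iff_isUnit_det _).mp h₀.isUnit
    have u0' : IsUnit (D₀ + N).det := isUnit_det_add_skew h₀ hN
    have r1 := inv_sub_inv_eq (hu' c hc.1.le hc.2.le) u0'
    have r2 := inv_sub_inv_eq (hu c hc.1.le hc.2.le) u0
    rw [add_sub_cancel_left] at r1 r2
    have k := re_trace_skew_le (hpd c hc.1.le hc.2.le) h₀ hN hHh
    rw [← ecomm] at k
    simp only [hF']
    have t1 : (trace ((D₀ + N + (c : ℂ) • H)⁻¹ * H)).re = (trace ((D₀ + N)⁻¹ * H)).re -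
        c * (trace ((D₀ + N + (c : ℂ) • H)⁻¹ * H * ((D₀ + N)⁻¹ * H))).re := by
      conv_lhs => rw [r1]
      simp only [Matrix.sub_mul, Matrix.mul_smul, Matrix.smul_mul, trace_sub, trace_smul,
        Matrix.mul_assoc, Complex.sub_re, smul_eq_mul, Complex.re_ofReal_mul]
    have t2 : (trace ((D₀ + (c : ℂ) • H)⁻¹ * H)).re = (trace (D₀⁻¹ * H)).re -
        c * (trace ((D₀ + (c : ℂ) • H)⁻¹ * H * (D₀⁻¹ * H))).re := by
      conv_lhs => rw [r2]
      simp only [Matrix.sub_mul, Matrix.mul_smul, Matrix.smul_mul, trace_sub, trace_smul,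
        Matrix.mul_assoc, Complex.sub_re, smul_eq_mul, Complex.re_ofReal_mul]
    rw [t1, t2, Matrix.sub_mul, trace_sub, Complex.sub_re]
    have := mul_le_mul_of_nonneg_left k hc.1.le
    linarith
  rw [hc', e0, e1] at hmono
  simp only [sub_zero, div_one] at hmono
  linarith

end Crest.Agent.R341
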