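import Crest.Agent.R341.Chan

/-!
Row 341: ensembles, the upper and lower bounds.
-/

set_option autoImplicit false
set_option linter.unusedSectionVars false

open Matrix Set
open scoped ComplexOrder MatrixOrder Kronecker

namespace Crest.Agent.R341

open Crest.Agent.R342 Crest.Quantum Crest.MathPhysics.AmpDamp

section ens
variable {d e : Type} [Fintype d] [Fintype e] [DecidableEq d] [DecidableEq e]
variable {ι : Type} [Fintype ι]

/-- ensembles over an arbitrary finite index type -/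
def Ens (q : ι → ℝ) (ρ : ι → Matrix d d ℂ) : Prop :=
  (∀ a, 0 ≤ q a) ∧ ∑ a, q a = 1 ∧ ∀ a, IsDensity (ρ a)

/-- Holevo information over an arbitrary finite index type -/
noncomputable def hol (Φ : Matrix d d ℂ → Matrix e e ℂ) (q : ι → ℝ) (ρ : ι → Matrix d d ℂ) : ℝ :=
  vnEntropy (∑ a, (q a : ℂ) • Φ (ρ a)) - ∑ a, q a * vnEntropy (Φ (ρ a))

lemma to_fin (Φ : Matrix d d ℂ → Matrix e e ℂ) {q : ι → ℝ} {ρ : ι → Matrix d d ℂ} (h : Ens q ρ) :
    ∃ (m : ℕ) (q' : Fin m → ℝ) (ρ' : Fin m → Matrix d d ℂ),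
      IsEnsemble q' ρ' ∧ holevoInfo Φ q' ρ' = hol Φ q ρ := by
  set f := (Fintype.equivFin ι).symm
  refine ⟨_, fun a => q (f a), fun a => ρ (f a), ⟨fun a => h.1 _, ?_, fun a => h.2.2 _⟩, ?_⟩
  · rw [Equiv.sum_comp f q, h.2.1]
  · unfold holevoInfo hol
    rw [Equiv.sum_comp f (fun a => (q a : ℂ) • Φ (ρ a)),
      Equiv.sum_comp f (fun a => q a * vnEntropy (Φ (ρ a)))]

lemma avg_density {q : ι → ℝ} {A : ι → Matrix d d ℂ} (hq : ∀ a, 0 ≤ q a) (hq1 : ∑ a, q a = 1)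
    (hA : ∀ a, IsDensity (A a)) : IsDensity (∑ a, (q a : ℂ) • A a) := by
  refine ⟨posSemidef_sum _ fun a _ => psd_smul (hA a).1 (hq a), ?_⟩
  simp only [trace_sum, trace_smul, (hA _).2, smul_eq_mul, mul_one]
  exact_mod_cast hq1

lemma tr_sum_smul (q : ι → ℝ) (A : ι → Matrix d d ℂ) :
    tr (∑ a, (q a : ℂ) • A a) = ∑ a, q a * tr (A a) := by
  simp [tr, trace_sum]

lemma sum_affine {q : ι → ℝ} (hq1 : ∑ a, q a = 1) (p : ι → ℝ) (A B : ℝ) :
    ∑ a, q a * (A * p a + B) = A * (∑ a, q a * p a) + B := by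
  have : ∀ a, q a * (A * p a + B) = A * (q a * p a) + q a * B := fun a => by ring
  simp only [this, Finset.sum_add_distrib, ← Finset.mul_sum, ← Finset.sum_mul, hq1, one_mul]

lemma block_sum_smul (q : ι → ℝ) (A : ι → Matrix (Bool × d) (Bool × d) ℂ) (s t : Bool) :
    block (∑ a, (q a : ℂ) • A a) s t = ∑ a, (q a : ℂ) • block (A a) s t := by
  ext i j; simp [block, Matrix.sum_apply]

variable {γ ν : ℝ}

lemma block_ff (Ψ : Matrix d d ℂ → Matrix e e ℂ) (ρ : Matrix (Bool × d) (Bool × d) ℂ) :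
    block (qubitTensor (gadMap γ ν) Ψ ρ) false false =
      ((1 - γ * ν : ℝ) : ℂ) • Ψ (block ρ false false) +
        ((γ * (1 - ν) : ℝ) : ℂ) • Ψ (block ρ true true) := by
  ext i j; simp [block, qubitTensor, qubitCoeff, gadMap, add_comm]

lemma block_tt (Ψ : Matrix d d ℂ → Matrix e e ℂ) (ρ : Matrix (Bool × d) (Bool × d) ℂ) :
    block (qubitTensor (gadMap γ ν) Ψ ρ) true true =
      ((γ * ν : ℝ) : ℂ) • Ψ (block ρ false false) +
        ((1 - γ + γ * ν : ℝ) : ℂ) • Ψ (block ρ true true) := by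
  ext i j; simp [block, qubitTensor, qubitCoeff, gadMap, add_comm]

lemma block_ft (Ψ : Matrix d d ℂ → Matrix e e ℂ) (ρ : Matrix (Bool × d) (Bool × d) ℂ) :
    block (qubitTensor (gadMap γ ν) Ψ ρ) false true =
      ((√(1 - γ) : ℝ) : ℂ) • Ψ (block ρ false true) := by
  ext i j; simp [block, qubitTensor, qubitCoeff, gadMap]

lemma block_tf (Ψ : Matrix d d ℂ → Matrix e e ℂ) (ρ : Matrix (Bool × d) (Bool × d) ℂ) :
    block (qubitTensor (gadMap γ ν) Ψ ρ) true false =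
      ((√(1 - γ) : ℝ) : ℂ) • Ψ (block ρ true false) := by
  ext i j; simp [block, qubitTensor, qubitCoeff, gadMap]

lemma pop_mem {ρ : Matrix (Bool × d) (Bool × d) ℂ} (hρ : IsDensity ρ) :
    tr (block ρ false false) = 1 - tr (block ρ true true) ∧
      tr (block ρ true true) ∈ Icc (0 : ℝ) 1 := by
  have h1 := tr_blocks ρ
  rw [density_tr hρ] at h1
  have h2 := tr_nonneg (psd_block hρ.1 false)
  exact ⟨by linarith, tr_nonneg (psd_block hρ.1 true), by linarith⟩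

/-- the key inequality for the product map -/
theorem key_tensor (hγ : γ ∈ Icc (0 : ℝ) 1) (hν : ν ∈ Icc (0 : ℝ) 1)
    {Ψ : Matrix d d ℂ → Matrix e e ℂ} (hΨ : Good Ψ) {ρ : Matrix (Bool × d) (Bool × d) ℂ}
    (hρ : IsDensity ρ) :
    (qubitTensor (gadMap γ ν) Ψ ρ).PosSemidef ∧
      hent (Ψ (block ρ false false)) + hent (Ψ (block ρ true true)) +
        ffun γ ν (tr (block ρ true true)) ≤ vnEntropy (qubitTensor (gadMap γ ν) Ψ ρ) := by
  obtain ⟨hx, hp⟩ := pop_mem hρ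
  obtain ⟨μ₁, μ₂, h₁, h₂, hs, hpr, hf⟩ := mu_spec hγ hν hp
  have hM : (fromBlocks (Ψ (block ρ false false)) (Ψ (block ρ false true))
      (Ψ (block ρ true false)) (Ψ (block ρ true true))).PosSemidef := psd_blocks (hΨ.pos2 ρ hρ.1)
  have g1 := hγ.1
  have g2 := hν.1
  have g3 : 0 ≤ 1 - γ := by linarith [hγ.2]
  have g4 : 0 ≤ 1 - ν := by linarith [hν.2]
  have k := key_blocks hM (a := 1 - γ * ν) (b := γ * (1 - ν)) (c := γ * ν) (d := 1 - γ + γ * ν)
    (r := √(1 - γ)) (by nlinarith [hγ.2, hν.2]) (by positivity) (by positivity) (by positivity)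
    (by ring) (by ring) (Real.sqrt_nonneg _) (by rw [Real.sq_sqrt g3]; ring)
    (by rw [hΨ.tr_eq, hΨ.tr_eq, hx]; ring) h₁ h₂ hs
    (by rw [hΨ.tr_eq, hΨ.tr_eq, hx, hpr, vfun]; ring)
  rw [← block_ff, ← block_tt, ← block_ft, ← block_tf] at k
  have hP := psd_of_blocks k.1
  rw [vn_blocks hP, ← hf] at k
  exact ⟨hP, k.2⟩

lemma exists_cond {Ψ : Matrix d d ℂ → Matrix e e ℂ} (hΨ : Good Ψ)
    {ρ : Matrix (Bool × d) (Bool × d) ℂ} (hρ : IsDensity ρ) (s : Bool) :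
    ∃ σ : Matrix d d ℂ, IsDensity σ ∧ Ψ (block ρ s s) = (tr (block ρ s s) : ℂ) • Ψ σ ∧
      hent (Ψ (block ρ s s)) = tr (block ρ s s) * vnEntropy (Ψ σ) := by
  have hω : IsDensity (block ρ false false + block ρ true true) := by
    refine ⟨(psd_block hρ.1 false).add (psd_block hρ.1 true), ?_⟩
    rw [trace_eq_tr ((psd_block hρ.1 false).add (psd_block hρ.1 true)), tr_add, tr_blocks,
      density_tr hρ]
    simp
  obtain ⟨σ, hσ, e⟩ := exists_normalize (psd_block hρ.1 s) hω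
  have e1 : Ψ (block ρ s s) = (tr (block ρ s s) : ℂ) • Ψ σ := by
    conv_lhs => rw [e]
    exact hΨ.lin.map_smul _ _
  refine ⟨σ, hσ, e1, ?_⟩
  rw [e1, hent_smul (hΨ.pos hσ.1) (tr_nonneg (psd_block hρ.1 s)),
    hent_of_tr_one (density_tr (hΨ.density hσ))]

theorem upper (hγ : γ ∈ Icc (0 : ℝ) 1) (hν : ν ∈ Icc (0 : ℝ) 1)
    {Ψ : Matrix d d ℂ → Matrix e e ℂ} (hΨ : Good Ψ) {q : ι → ℝ}
    {ρ : ι → Matrix (Bool × d) (Bool × d) ℂ} (h : Ens q ρ) :
    ∃ p : ι → ℝ, (∀ a, p a ∈ Icc (0 : ℝ) 1) ∧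
      ∃ (q₂ : ι × Bool → ℝ) (ρ₂ : ι × Bool → Matrix d d ℂ), Ens q₂ ρ₂ ∧
        hol (qubitTensor (gadMap γ ν) Ψ) q ρ ≤
          (Real.binEntropy ((1 - γ) * (∑ a, q a * p a) + γ * ν) - ∑ a, q a * ffun γ ν (p a)) +
            hol Ψ q₂ ρ₂ := by
  obtain ⟨hq, hq1, hρ⟩ := h
  choose σ hσ e1 e2 using fun (a : ι) (s : Bool) => exists_cond hΨ (hρ a) s
  refine ⟨fun a => tr (block (ρ a) true true), fun a => (pop_mem (hρ a)).2,
    fun x => q x.1 * tr (block (ρ x.1) x.2 x.2), fun x => σ x.1 x.2,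
    ⟨fun x => mul_nonneg (hq _) (tr_nonneg (psd_block (hρ _).1 _)), ?_, fun x => hσ _ _⟩, ?_⟩
  · rw [Fintype.sum_prod_type, ← hq1]
    refine Finset.sum_congr rfl fun a _ => ?_
    rw [Fintype.sum_bool, (pop_mem (hρ a)).1]; ring
  · unfold hol
    set τ := ∑ a, (q a : ℂ) • qubitTensor (gadMap γ ν) Ψ (ρ a) with hτ
    have hτp : τ.PosSemidef :=
      posSemidef_sum _ fun a _ => psd_smul (key_tensor hγ hν hΨ (hρ a)).1 (hq a)
    have t1 : tr (block τ true true) =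
        (1 - γ) * (∑ a, q a * tr (block (ρ a) true true)) + γ * ν := by
      rw [hτ, block_sum_smul, tr_sum_smul]
      simp only [block_tt, tr_add, tr_smul, hΨ.tr_eq, (pop_mem (hρ _)).1]
      rw [← sum_affine hq1]
      exact Finset.sum_congr rfl fun a _ => by ring
    have t2 : tr (block τ false false) + tr (block τ true true) = 1 := by
      rw [hτ, block_sum_smul, block_sum_smul, tr_sum_smul, tr_sum_smul, ← Finset.sum_add_distrib,
        ← hq1]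
      simp only [block_tt, block_ff, tr_add, tr_smul, hΨ.tr_eq, (pop_mem (hρ _)).1]
      exact Finset.sum_congr rfl fun a _ => by ring
    have t3 : block τ false false + block τ true true =
        ∑ x : ι × Bool, ((q x.1 * tr (block (ρ x.1) x.2 x.2) : ℝ) : ℂ) • Ψ (σ x.1 x.2) := by
      rw [hτ, block_sum_smul, block_sum_smul, ← Finset.sum_add_distrib, Fintype.sum_prod_type]
      refine Finset.sum_congr rfl fun a _ => ?_
      rw [Fintype.sum_bool, block_tt, block_ff]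
      simp only [Complex.ofReal_mul (q a), ← smul_smul, ← e1]
      push_cast
      module
    have s1 := vn_le_subadd (psd_blocks hτp) t2
    rw [vn_blocks hτp, t1, t3] at s1
    have s2 : ∑ a, q a * ffun γ ν (tr (block (ρ a) true true)) +
        ∑ x : ι × Bool, q x.1 * tr (block (ρ x.1) x.2 x.2) * vnEntropy (Ψ (σ x.1 x.2)) ≤
        ∑ a, q a * vnEntropy (qubitTensor (gadMap γ ν) Ψ (ρ a)) := by
      rw [Fintype.sum_prod_type, ← Finset.sum_add_distrib]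
      refine Finset.sum_le_sum fun a _ => ?_
      have k := mul_le_mul_of_nonneg_left (key_tensor hγ hν hΨ (hρ a)).2 (hq a)
      rw [e2, e2] at k
      rw [Fintype.sum_bool]
      linarith
    linarith

theorem qubit_ens (hγ : γ ∈ Icc (0 : ℝ) 1) (hν : ν ∈ Icc (0 : ℝ) 1) {q p : ι → ℝ}
    (hq : ∀ a, 0 ≤ q a) (hq1 : ∑ a, q a = 1) (hp : ∀ a, p a ∈ Icc (0 : ℝ) 1) :
    ∃ (q₁ : ι × Bool → ℝ) (ρ₁ : ι × Bool → Matrix Bool Bool ℂ), Ens q₁ ρ₁ ∧
      hol (gadMap γ ν) q₁ ρ₁ =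
        Real.binEntropy ((1 - γ) * (∑ a, q a * p a) + γ * ν) - ∑ a, q a * ffun γ ν (p a) := by
  refine ⟨fun x => q x.1 / 2, fun x => psi (p x.1) x.2,
    ⟨fun x => div_nonneg (hq _) two_pos.le, ?_, fun x => psi_density (hp _) _⟩, ?_⟩
  · rw [Fintype.sum_prod_type, ← hq1]
    exact Finset.sum_congr rfl fun a _ => by rw [Fintype.sum_bool]; ring
  · unfold hol
    have hbar : ∑ a, q a * p a ∈ Icc (0 : ℝ) 1 := by
      refine ⟨Finset.sum_nonneg fun a _ => mul_nonneg (hq a) (hp a).1, ?_⟩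
      rw [← hq1]
      exact Finset.sum_le_sum fun a _ => mul_le_of_le_one_right (hq a) (hp a).2
    set r := (1 - γ) * (∑ a, q a * p a) + γ * ν with hr
    have hr1 : r ∈ Icc (0 : ℝ) 1 := by
      have g3 : 0 ≤ 1 - γ := by linarith [hγ.2]
      constructor
      · exact add_nonneg (mul_nonneg g3 hbar.1) (mul_nonneg hγ.1 hν.1)
      · have a1 := mul_le_mul_of_nonneg_left hbar.2 g3
        have a2 := mul_le_mul_of_nonneg_left hν.2 hγ.1
        linarith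
    have er : r = ∑ a, q a * (γ * ν * (1 - p a) + (1 - γ + γ * ν) * p a) := by
      rw [hr, ← sum_affine hq1]
      exact Finset.sum_congr rfl fun a _ => by ring
    have er' : 1 - r = ∑ a, q a * ((1 - γ * ν) * (1 - p a) + γ * (1 - ν) * p a) := by
      have := sum_affine hq1 p (-(1 - γ)) (1 - γ * ν)
      rw [show 1 - r = -(1 - γ) * (∑ a, q a * p a) + (1 - γ * ν) by rw [hr]; ring, ← this]
      exact Finset.sum_congr rfl fun a _ => by ring
    have e : ∑ x : ι × Bool, ((q x.1 / 2 : ℝ) : ℂ) • gadMap γ ν (psi (p x.1) x.2) =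
        mk2 (1 - r) 0 r := by
      rw [er']
      conv_rhs => rw [er]
      ext s t
      simp only [psi, gad_mk2, Matrix.sum_apply, Fintype.sum_prod_type, Fintype.sum_bool]
      cases s <;> cases t <;> simp [mk2]
      · exact Finset.sum_congr rfl fun a _ => by ring
      · exact Finset.sum_congr rfl fun a _ => by ring
    rw [e, vn_mk2_diag hr1, Fintype.sum_prod_type]
    congr 1
    refine Finset.sum_congr rfl fun a _ => ?_
    rw [Fintype.sum_bool, vn_gad_psi hγ hν (hp a), vn_gad_psi hγ hν (hp a)]; ring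

lemma tensor_kronecker {Ψ : Matrix d d ℂ → Matrix e e ℂ} (hΨ : Good Ψ) (A : Matrix Bool Bool ℂ)
    (B : Matrix d d ℂ) : qubitTensor (gadMap γ ν) Ψ (A ⊗ₖ B) = gadMap γ ν A ⊗ₖ Ψ B := by
  ext ⟨s, i⟩ ⟨t, j⟩
  have hb : ∀ s' t', block (A ⊗ₖ B) s' t' = A s' t' • B := by
    intro s' t'; ext i j; simp [block]
  simp only [qubitTensor, of_apply, hb, hΨ.lin.map_smul, kroneckerMap_apply, gad_apply,
    Finset.sum_mul, Matrix.smul_apply, smul_eq_mul, mul_assoc]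

lemma kronecker_density {A : Matrix Bool Bool ℂ} {B : Matrix d d ℂ} (hA : IsDensity A)
    (hB : IsDensity B) : IsDensity (A ⊗ₖ B) :=
  ⟨hA.1.kronecker hB.1, by rw [trace_kronecker, hA.2, hB.2, mul_one]⟩

lemma vn_kronecker_density {A : Matrix Bool Bool ℂ} {B : Matrix d d ℂ} (hA : IsDensity A)
    (hB : IsDensity B) : vnEntropy (A ⊗ₖ B) = vnEntropy A + vnEntropy B := by
  rw [vn_kronecker hA.1 hB.1, density_tr hA, density_tr hB, one_mul, one_mul]

theorem lower (hγ : γ ∈ Icc (0 : ℝ) 1) (hν : ν ∈ Icc (0 : ℝ) 1)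
    {Ψ : Matrix d d ℂ → Matrix e e ℂ} (hΨ : Good Ψ) {ι' : Type} [Fintype ι'] {q₁ : ι → ℝ}
    {ρ₁ : ι → Matrix Bool Bool ℂ} {q₂ : ι' → ℝ} {ρ₂ : ι' → Matrix d d ℂ} (h₁ : Ens q₁ ρ₁)
    (h₂ : Ens q₂ ρ₂) :
    ∃ (q : ι × ι' → ℝ) (ρ : ι × ι' → Matrix (Bool × d) (Bool × d) ℂ), Ens q ρ ∧
      hol (qubitTensor (gadMap γ ν) Ψ) q ρ = hol (gadMap γ ν) q₁ ρ₁ + hol Ψ q₂ ρ₂ := by
  have hΦ := good_gad hγ hν
  refine ⟨fun x => q₁ x.1 * q₂ x.2, fun x => ρ₁ x.1 ⊗ₖ ρ₂ x.2,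
    ⟨fun x => mul_nonneg (h₁.1 _) (h₂.1 _), ?_,
      fun x => kronecker_density (h₁.2.2 _) (h₂.2.2 _)⟩, ?_⟩
  · rw [Fintype.sum_prod_type, ← Finset.sum_mul_sum, h₁.2.1, h₂.2.1, mul_one]
  · unfold hol
    simp only [tensor_kronecker hΨ]
    have e : ∑ x : ι × ι', ((q₁ x.1 * q₂ x.2 : ℝ) : ℂ) • (gadMap γ ν (ρ₁ x.1) ⊗ₖ Ψ (ρ₂ x.2)) =
        (∑ a, (q₁ a : ℂ) • gadMap γ ν (ρ₁ a)) ⊗ₖ (∑ b, (q₂ b : ℂ) • Ψ (ρ₂ b)) := by
      ext ⟨s, i⟩ ⟨t, j⟩
      simp only [Matrix.sum_apply, Matrix.smul_apply, kroneckerMap_apply, smul_eq_mul,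
        Finset.sum_mul_sum, Fintype.sum_prod_type]
      refine Finset.sum_congr rfl fun a _ => Finset.sum_congr rfl fun b _ => ?_
      push_cast; ring
    rw [e, vn_kronecker_density (avg_density h₁.1 h₁.2.1 fun a => hΦ.density (h₁.2.2 a))
      (avg_density h₂.1 h₂.2.1 fun a => hΨ.density (h₂.2.2 a))]
    simp only [vn_kronecker_density (hΦ.density (h₁.2.2 _)) (hΨ.density (h₂.2.2 _))]
    have e2 : ∑ x : ι × ι', q₁ x.1 * q₂ x.2 *
        (vnEntropy (gadMap γ ν (ρ₁ x.1)) + vnEntropy (Ψ (ρ₂ x.2))) =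
        ∑ a, q₁ a * vnEntropy (gadMap γ ν (ρ₁ a)) + ∑ b, q₂ b * vnEntropy (Ψ (ρ₂ b)) := by
      conv_rhs => rw [← mul_one (∑ a, q₁ a * vnEntropy (gadMap γ ν (ρ₁ a))),
        ← one_mul (∑ b, q₂ b * vnEntropy (Ψ (ρ₂ b)))]
      conv_rhs => arg 1; rw [← h₂.2.1]
      conv_rhs => arg 2; rw [← h₁.2.1]
      rw [Finset.sum_mul_sum, Finset.sum_mul_sum, ← Finset.sum_add_distrib, Fintype.sum_prod_type]
      refine Finset.sum_congr rfl fun a _ => ?_
      rw [← Finset.sum_add_distrib]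
      exact Finset.sum_congr rfl fun b _ => by ring
    rw [e2]; ring

theorem min_upper (hγ : γ ∈ Icc (0 : ℝ) 1) (hν : ν ∈ Icc (0 : ℝ) 1)
    {Ψ : Matrix d d ℂ → Matrix e e ℂ} (hΨ : Good Ψ) {ρ : Matrix (Bool × d) (Bool × d) ℂ}
    (hρ : IsDensity ρ) :
    ∃ (ρ₁ : Matrix Bool Bool ℂ) (ρ₂ : Matrix d d ℂ), IsDensity ρ₁ ∧ IsDensity ρ₂ ∧
      vnEntropy (gadMap γ ν ρ₁) + vnEntropy (Ψ ρ₂) ≤ vnEntropy (qubitTensor (gadMap γ ν) Ψ ρ) := by
  obtain ⟨hx, hp⟩ := pop_mem hρ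
  obtain ⟨σ₀, h₀, -, e₀⟩ := exists_cond hΨ hρ false
  obtain ⟨σ₁, h₁, -, e₁⟩ := exists_cond hΨ hρ true
  have k := (key_tensor hγ hν hΨ hρ).2
  rw [e₀, e₁, hx] at k
  have hp' : 0 ≤ 1 - tr (block ρ true true) := by linarith [hp.2]
  rcases le_total (vnEntropy (Ψ σ₀)) (vnEntropy (Ψ σ₁)) with h | h
  · refine ⟨psi _ false, σ₀, psi_density hp false, h₀, ?_⟩
    rw [vn_gad_psi hγ hν hp]
    nlinarith [mul_le_mul_of_nonneg_left h hp.1]
  · refine ⟨psi _ false, σ₁, psi_density hp false, h₁, ?_⟩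
    rw [vn_gad_psi hγ hν hp]
    nlinarith [mul_le_mul_of_nonneg_left h hp']

end ens

section power
variable {γ ν : ℝ} {ι : Type} [Fintype ι]

/-- splitting off the first qubit -/
def cE (n : ℕ) : Bool × (Fin n → Bool) ≃ (Fin (n + 1) → Bool) := Fin.consEquiv fun _ => Bool

lemma power_succ (n : ℕ) (Φ : Matrix Bool Bool ℂ → Matrix Bool Bool ℂ)
    (M : Matrix (Fin (n + 1) → Bool) (Fin (n + 1) → Bool) ℂ) :
    (qubitPower (n + 1) Φ M).submatrix (cE n) (cE n) =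
      qubitTensor Φ (qubitPower n Φ) (M.submatrix (cE n) (cE n)) := by
  ext ⟨s, σ⟩ ⟨t, τ⟩
  simp only [submatrix_apply, qubitPower, qubitTensor, of_apply, block]
  rw [← Equiv.sum_comp (cE n), Fintype.sum_prod_type]
  refine Finset.sum_congr rfl fun s' _ => ?_
  simp only [← Equiv.sum_comp (cE n), Fintype.sum_prod_type, Finset.mul_sum]
  rw [Finset.sum_comm]
  refine Finset.sum_congr rfl fun t' _ => Finset.sum_congr rfl fun σ' _ =>
    Finset.sum_congr rfl fun τ' _ => ?_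
  rw [Fin.prod_univ_succ, mul_assoc]
  simp [cE]

lemma hol_power_succ (hγ : γ ∈ Icc (0 : ℝ) 1) (hν : ν ∈ Icc (0 : ℝ) 1) (n : ℕ) {q : ι → ℝ}
    {ρ : ι → Matrix (Fin (n + 1) → Bool) (Fin (n + 1) → Bool) ℂ} (h : Ens q ρ) :
    hol (qubitPower (n + 1) (gadMap γ ν)) q ρ =
      hol (qubitTensor (gadMap γ ν) (qubitPower n (gadMap γ ν))) q
        (fun a => (ρ a).submatrix (cE n) (cE n)) := by
  have hG := good_power hγ hν (n + 1)
  unfold hol
  simp only [← power_succ, vn_submatrix (hG.pos (h.2.2 _).1)]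
  rw [← vn_submatrix (avg_density h.1 h.2.1 fun a => hG.density (h.2.2 a)).1 (cE n)]
  congr 2
  ext i j; simp [Matrix.sum_apply]

lemma density_submatrix {d d' : Type} [Fintype d] [Fintype d'] [DecidableEq d] [DecidableEq d']
    {ρ : Matrix d d ℂ} (h : IsDensity ρ) (f : d' ≃ d) : IsDensity (ρ.submatrix f f) := by
  refine ⟨h.1.submatrix f, ?_⟩
  rw [← h.2]
  exact Equiv.sum_comp f (fun i => ρ i i)

lemma hol_power_zero (hγ : γ ∈ Icc (0 : ℝ) 1) (hν : ν ∈ Icc (0 : ℝ) 1) {q : ι → ℝ}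
    {ρ : ι → Matrix (Fin 0 → Bool) (Fin 0 → Bool) ℂ} (h : Ens q ρ) :
    hol (qubitPower 0 (gadMap γ ν)) q ρ = 0 := by
  have hG := good_power hγ hν 0
  have one : ∀ A : Matrix (Fin 0 → Bool) (Fin 0 → Bool) ℂ, IsDensity A → A = 1 := by
    intro A hA
    have := hA.2
    ext i j
    rw [Subsingleton.elim i default, Subsingleton.elim j default, one_apply_eq, ← this]
    simp only [trace, diag_apply, Finset.univ_unique, Finset.sum_singleton]
    congr 1 <;> exact Subsingleton.elim _ _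
  unfold hol
  rw [one _ (avg_density h.1 h.2.1 fun a => hG.density (h.2.2 a))]
  simp only [one _ (hG.density (h.2.2 _)), ← Finset.sum_mul, h.2.1, one_mul, sub_self]

theorem power_upper (hγ : γ ∈ Icc (0 : ℝ) 1) (hν : ν ∈ Icc (0 : ℝ) 1) (n : ℕ) :
    ∀ (ι : Type) [Fintype ι] (q : ι → ℝ) (ρ : ι → Matrix (Fin n → Bool) (Fin n → Bool) ℂ),
      Ens q ρ → ∃ p ∈ Icc (0 : ℝ) 1, hol (qubitPower n (gadMap γ ν)) q ρ ≤ n * gadRate γ ν p := by
  induction n with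
  | zero =>
    intro ι _ q ρ h
    exact ⟨0, ⟨le_rfl, zero_le_one⟩, by rw [hol_power_zero hγ hν h]; simp⟩
  | succ n ih =>
    intro ι _ q ρ h
    have h' : Ens q (fun a => (ρ a).submatrix (cE n) (cE n)) :=
      ⟨h.1, h.2.1, fun a => density_submatrix (h.2.2 a) _⟩
    obtain ⟨p, hp, q₂, ρ₂, h₂, hle⟩ := upper hγ hν (good_power hγ hν n) h'
    obtain ⟨p', hp', hle'⟩ := ih _ q₂ ρ₂ h₂
    have hbar : ∑ a, q a * p a ∈ Icc (0 : ℝ) 1 := by
      refine ⟨Finset.sum_nonneg fun a _ => mul_nonneg (h.1 a) (hp a).1, ?_⟩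
      rw [← h.2.1]
      exact Finset.sum_le_sum fun a _ => mul_le_of_le_one_right (h.1 a) (hp a).2
    have j := ffun_jensen hγ hν h.1 h.2.1 hp
    rw [← hol_power_succ hγ hν n h] at hle
    have e := gadRate_eq γ ν (∑ a, q a * p a)
    have hn : (0 : ℝ) ≤ n := Nat.cast_nonneg n
    rcases le_total (gadRate γ ν p') (gadRate γ ν (∑ a, q a * p a)) with hh | hh
    · refine ⟨_, hbar, ?_⟩
      have := mul_le_mul_of_nonneg_left hh hn
      push_cast; linarith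
    · refine ⟨p', hp', ?_⟩
      push_cast; linarith

theorem power_lower (hγ : γ ∈ Icc (0 : ℝ) 1) (hν : ν ∈ Icc (0 : ℝ) 1) {p : ℝ}
    (hp : p ∈ Icc (0 : ℝ) 1) (n : ℕ) :
    ∃ (m : ℕ) (q : Fin m → ℝ) (ρ : Fin m → Matrix (Fin n → Bool) (Fin n → Bool) ℂ),
      IsEnsemble q ρ ∧ n * gadRate γ ν p ≤ holevoInfo (qubitPower n (gadMap γ ν)) q ρ := by
  induction n with
  | zero =>
    have h : Ens (fun _ : Fin 1 => (1 : ℝ))
        (fun _ => (1 : Matrix (Fin 0 → Bool) (Fin 0 → Bool) ℂ)) :=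
      ⟨fun _ => zero_le_one, by simp, fun _ => ⟨PosSemidef.one, by simp⟩⟩
    refine ⟨1, _, _, h, ?_⟩
    have := hol_power_zero hγ hν h
    simp only [Nat.cast_zero, zero_mul]
    exact this.ge
  | succ n ih =>
    obtain ⟨m, q₂, ρ₂, h₂, hle⟩ := ih
    obtain ⟨q₁, ρ₁, h₁, e₁⟩ := qubit_ens hγ hν (ι := Unit) (q := fun _ => 1) (p := fun _ => p)
      (fun _ => zero_le_one) (by simp) (fun _ => hp)
    obtain ⟨q, ρ, h, e⟩ := lower hγ hν (good_power hγ hν n) h₁ (show Ens q₂ ρ₂ from h₂)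
    have h' : Ens q (fun a => (ρ a).submatrix (cE n).symm (cE n).symm) :=
      ⟨h.1, h.2.1, fun a => density_submatrix (h.2.2 a) _⟩
    obtain ⟨m', q', ρ', hh, ee⟩ := to_fin (qubitPower (n + 1) (gadMap γ ν)) h'
    refine ⟨m', q', ρ', hh, ?_⟩
    rw [ee, hol_power_succ hγ hν n h']
    simp only [submatrix_submatrix, Equiv.symm_comp_self, submatrix_id_id]
    rw [e, e₁]
    have e2 : hol (qubitPower n (gadMap γ ν)) q₂ ρ₂ = holevoInfo (qubitPower n (gadMap γ ν)) q₂ ρ₂ :=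
      rfl
    rw [e2]
    simp only [Finset.univ_unique, Finset.sum_singleton, one_mul]
    rw [← gadRate_eq]
    push_cast; linarith

end power

end Crest.Agent.R341
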