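import Crest.Agent.R341.Ent

/-!
Row 341: the three-edge entropy inequality.
-/

set_option autoImplicit false
set_option linter.unusedSectionVars false

open Matrix MeasureTheory Set Filter Topology
open scoped ComplexOrder MatrixOrder Kronecker

namespace Crest.Agent.R341

open Crest.Agent.R342 Crest.Quantum

section algebra
variable {m n : Type} [Fintype m] [Fintype n] [DecidableEq m] [DecidableEq n]

lemma mul_fc_intertwine {A : Matrix m m ℂ} {B : Matrix n n ℂ} (hA : A.IsHermitian)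
    (hB : B.IsHermitian) {V : Matrix m n ℂ} (h : A * V = V * B) (f : ℝ → ℝ) :
    V * fc f B = fc f A * V := by
  set W := (eU A)ᴴ * V * eU B with hW
  have hV : V = eU A * W * (eU B)ᴴ := by
    rw [hW]
    calc V = (eU A * (eU A)ᴴ) * V * (eU B * (eU B)ᴴ) := by rw [eU_mul, eU_mul]; simp
      _ = _ := by simp only [Matrix.mul_assoc]
  have key : ∀ g : ℝ → ℝ, (eU A)ᴴ * (fc g A * V) * eU B =
      diagonal (fun i => (g (ev A i) : ℂ)) * W := by
    intro g
    unfold fc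
    rw [hW]
    calc (eU A)ᴴ * (eU A * diagonal (fun i => (g (ev A i) : ℂ)) * (eU A)ᴴ * V) * eU B
        = ((eU A)ᴴ * eU A) * diagonal (fun i => (g (ev A i) : ℂ)) * ((eU A)ᴴ * V * eU B) := by
          simp only [Matrix.mul_assoc]
      _ = _ := by rw [eU_mul', Matrix.one_mul]
  have key' : ∀ g : ℝ → ℝ, (eU A)ᴴ * (V * fc g B) * eU B =
      W * diagonal (fun i => (g (ev B i) : ℂ)) := by
    intro g
    unfold fc
    rw [hW]
    calc (eU A)ᴴ * (V * (eU B * diagonal (fun i => (g (ev B i) : ℂ)) * (eU B)ᴴ)) * eU B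
        = ((eU A)ᴴ * V * eU B) * diagonal (fun i => (g (ev B i) : ℂ)) * ((eU B)ᴴ * eU B) := by
          simp only [Matrix.mul_assoc]
      _ = _ := by rw [eU_mul', Matrix.mul_one]
  have h1 : diagonal (fun i => (ev A i : ℂ)) * W = W * diagonal (fun i => (ev B i : ℂ)) := by
    rw [← key (fun t => t), ← key' (fun t => t), fc_id hA, fc_id hB, h]
  have h2 : diagonal (fun i => (f (ev A i) : ℂ)) * W = W * diagonal (fun i => (f (ev B i) : ℂ)) := by
    ext i j
    have := congrFun (congrFun h1 i) j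
    simp only [diagonal_mul, mul_diagonal] at this ⊢
    by_cases hw : W i j = 0
    · simp [hw]
    · rw [mul_comm] at this
      have h3 := mul_left_cancel₀ hw this
      have h4 : ev A i = ev B j := by exact_mod_cast h3
      rw [h4, mul_comm]
  have h3 : (eU A)ᴴ * (V * fc f B) * eU B = (eU A)ᴴ * (fc f A * V) * eU B := by
    rw [key, key', h2]
  calc V * fc f B = (eU A * (eU A)ᴴ) * (V * fc f B) * (eU B * (eU B)ᴴ) := by
        rw [eU_mul, eU_mul]; simp
    _ = eU A * ((eU A)ᴴ * (V * fc f B) * eU B) * (eU B)ᴴ := by simp only [Matrix.mul_assoc]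
    _ = eU A * ((eU A)ᴴ * (fc f A * V) * eU B) * (eU B)ᴴ := by rw [h3]
    _ = (eU A * (eU A)ᴴ) * (fc f A * V) * (eU B * (eU B)ᴴ) := by simp only [Matrix.mul_assoc]
    _ = fc f A * V := by rw [eU_mul, eU_mul]; simp

lemma det_fromBlocks_of_inv (A A' : Matrix m m ℂ) (B : Matrix m n ℂ) (C : Matrix n m ℂ)
    (D : Matrix n n ℂ) (h : A * A' = 1) :
    det (fromBlocks A B C D) = det A * det (D - C * A' * B) := by
  have e : fromBlocks A B C D = fromBlocks A 0 0 1 * fromBlocks 1 (A' * B) C D := by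
    rw [fromBlocks_multiply]; simp [← Matrix.mul_assoc, h]
  rw [e, det_mul, det_fromBlocks_zero₂₁, det_fromBlocks_one₁₁, det_one, mul_one, Matrix.mul_assoc]

lemma posDef_fromBlocks_one_add {A : Matrix m m ℂ} {D : Matrix n n ℂ} (hA : A.PosSemidef)
    (hD : D.PosSemidef) : (fromBlocks (1 + A) 0 0 (1 + D)).PosDef := by
  have : fromBlocks (1 + A) 0 0 (1 + D) = 1 + fromBlocks A 0 0 D := by
    rw [← fromBlocks_one, fromBlocks_add]; simp
  rw [this]
  exact PosDef.add_posSemidef PosDef.one (psd_fromBlocks_diag hA hD)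

lemma trace_fromBlocks' (A : Matrix m m ℂ) (B : Matrix m n ℂ) (C : Matrix n m ℂ)
    (D : Matrix n n ℂ) : trace (fromBlocks A B C D) = trace A + trace D := by
  simp [trace, Fintype.sum_sum_type]

/-- diagonal of `B` in the eigenbasis of `A` -/
noncomputable def dg (A B : Matrix n n ℂ) (i : n) : ℝ := (((eU A)ᴴ * B * eU A) i i).re

lemma dg_nonneg (A : Matrix n n ℂ) {B : Matrix n n ℂ} (hB : B.PosSemidef) (i : n) :
    0 ≤ dg A B i :=
  (Complex.nonneg_iff.mp ((hB.conjTranspose_mul_mul_same (eU A)).diag_nonneg (i := i))).1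

lemma re_trace_fc_mul (f : ℝ → ℝ) (A B : Matrix n n ℂ) :
    (trace (fc f A * B)).re = ∑ i, f (ev A i) * dg A B i := by
  rw [trace_fc_mul, Complex.re_sum]
  simp only [Complex.re_ofReal_mul, dg]

lemma sum_dg (A B : Matrix n n ℂ) : ∑ i, dg A B i = tr B := by
  have := re_trace_fc_mul (fun _ => 1) A B
  rw [fc_one, Matrix.one_mul] at this
  simp [tr, this]

lemma re_trace_fc_mul_sub {A : Matrix n n ℂ} (hA : A.IsHermitian) (f : ℝ → ℝ) (B : Matrix n n ℂ)
    (a θ : ℝ) :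
    (trace (fc f A * ((1 + (a : ℂ) • B) - (1 + ((a * θ : ℝ) : ℂ) • A)))).re =
      ∑ i, a * f (ev A i) * (dg A B i - θ * ev A i) := by
  rw [add_sub_add_left_eq_sub, Matrix.mul_sub, Matrix.mul_smul, Matrix.mul_smul, trace_sub,
    trace_smul, trace_smul, fc_mul_self hA, trace_fc, Complex.sub_re, smul_eq_mul, smul_eq_mul,
    Complex.re_ofReal_mul, Complex.re_ofReal_mul, re_trace_fc_mul, Complex.ofReal_re,
    Finset.mul_sum, Finset.mul_sum, ← Finset.sum_sub_distrib]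
  exact Finset.sum_congr rfl fun i _ => by ring

/-- the quadratic `(1 + a α y)(1 + a β y) + a y` -/
def Dq (a α β y : ℝ) : ℝ := (1 + a * α * y) * (1 + a * β * y) + a * y

lemma Dq_pos {a α β y : ℝ} (ha : 0 ≤ a) (hα : 0 ≤ α) (hβ : 0 ≤ β) (hy : 0 ≤ y) :
    0 < Dq a α β y := by unfold Dq; positivity

lemma Dq_comm (a α β y : ℝ) : Dq a α β y = Dq a β α y := by unfold Dq; ring

/-- gradient kernel -/
noncomputable def gk (a α β y : ℝ) : ℝ := a ^ 2 * y / (Dq a α β y * (1 + a * α * y))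

lemma gk_aux {a y P Q D : ℝ} (hD : D ≠ 0) (hQ : Q ≠ 0) (h : D = P * Q + a * y) :
    a * (P / D - Q⁻¹) = -(a ^ 2 * y / (D * Q)) := by
  field_simp
  rw [h]; ring

lemma path3_pointwise (V : Matrix m n ℂ) {T : Matrix m m ℂ} {S : Matrix n n ℂ}
    (hT : T.PosSemidef) (hS : S.PosSemidef) {σ θ : ℝ} (hσ : 0 ≤ σ) (hθ : 0 ≤ θ) (c : ℝ) :
    ∑ j, (Real.log (Dq (c ^ 2) σ θ (ev (Vᴴ * V) j)) - Real.log (1 + c ^ 2 * σ * ev (Vᴴ * V) j) -
        Real.log (1 + c ^ 2 * θ * ev (Vᴴ * V) j)) -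
      ∑ i, gk (c ^ 2) θ σ (ev (V * Vᴴ) i) * (dg (V * Vᴴ) T i - θ * ev (V * Vᴴ) i) -
      ∑ j, gk (c ^ 2) σ θ (ev (Vᴴ * V) j) * (dg (Vᴴ * V) S j - σ * ev (Vᴴ * V) j) ≤
    ldet (fromBlocks (1 + ((c ^ 2 : ℝ) : ℂ) • T) ((c : ℂ) • V) (-((c : ℂ) • Vᴴ))
        (1 + ((c ^ 2 : ℝ) : ℂ) • S)) -
      ldet (1 + ((c ^ 2 : ℝ) : ℂ) • T) - ldet (1 + ((c ^ 2 : ℝ) : ℂ) • S) := by
  set a := c ^ 2 with ha
  have ha0 : 0 ≤ a := sq_nonneg c
  set X := Vᴴ * V with hX
  set Y := V * Vᴴ with hY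
  have hXp : X.PosSemidef := posSemidef_conjTranspose_mul_self V
  have hYp : Y.PosSemidef := posSemidef_self_mul_conjTranspose V
  have hi : ∀ f : ℝ → ℝ, V * fc f X = fc f Y * V :=
    mul_fc_intertwine hYp.1 hXp.1 (by rw [hX, hY, Matrix.mul_assoc])
  have hi' : ∀ f : ℝ → ℝ, Vᴴ * fc f Y = fc f X * Vᴴ :=
    mul_fc_intertwine hXp.1 hYp.1 (by rw [hX, hY, Matrix.mul_assoc])
  set N : Matrix (m ⊕ n) (m ⊕ n) ℂ := fromBlocks 0 ((c : ℂ) • V) (-((c : ℂ) • Vᴴ)) 0 with hN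
  have hNs : Nᴴ = -N := by
    rw [hN, fromBlocks_conjTranspose, fromBlocks_neg]
    simp [conjTranspose_smul]
  have h₀ := posDef_fromBlocks_one_add (psd_smul hYp (mul_nonneg ha0 hθ))
    (psd_smul hXp (mul_nonneg ha0 hσ))
  have h₁ := posDef_fromBlocks_one_add (psd_smul hT ha0) (psd_smul hS ha0)
  have main := ldet_tangent h₀ h₁ hNs
  have pθ : ∀ y : ℝ, 0 ≤ y → 0 < 1 + a * θ * y := fun y hy => by positivity
  have pσ : ∀ y : ℝ, 0 ≤ y → 0 < 1 + a * σ * y := fun y hy => by positivity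
  have pD : ∀ y : ℝ, 0 ≤ y → 0 < Dq a σ θ y := fun y hy => Dq_pos ha0 hσ hθ hy
  have hcc : (c : ℂ) * c = (a : ℂ) := by rw [ha]; push_cast; ring
  -- the value at `D₁`
  have e1 : fromBlocks (1 + (a : ℂ) • T) 0 0 (1 + (a : ℂ) • S) + N =
      fromBlocks (1 + (a : ℂ) • T) ((c : ℂ) • V) (-((c : ℂ) • Vᴴ)) (1 + (a : ℂ) • S) := by
    rw [hN, fromBlocks_add]; simp
  have e2 : ldet (fromBlocks (1 + (a : ℂ) • T) 0 0 (1 + (a : ℂ) • S)) =
      ldet (1 + (a : ℂ) • T) + ldet (1 + (a : ℂ) • S) := by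
    have n1 : det (1 + (a : ℂ) • T) ≠ 0 :=
      ((isUnit_iff_isUnit_det _).mp
        (PosDef.add_posSemidef PosDef.one (psd_smul hT ha0)).isUnit).ne_zero
    have n2 : det (1 + (a : ℂ) • S) ≠ 0 :=
      ((isUnit_iff_isUnit_det _).mp
        (PosDef.add_posSemidef PosDef.one (psd_smul hS ha0)).isUnit).ne_zero
    unfold ldet
    rw [det_fromBlocks_zero₂₁, norm_mul, Real.log_mul (norm_ne_zero_iff.mpr n1)
      (norm_ne_zero_iff.mpr n2)]
  -- the matrices at `D₀`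
  have fY : 1 + ((a * θ : ℝ) : ℂ) • Y = fc (fun t => 1 + a * θ * t) Y := one_add_smul_eq_fc hYp.1 _
  have fX : 1 + ((a * σ : ℝ) : ℂ) • X = fc (fun t => 1 + a * σ * t) X := one_add_smul_eq_fc hXp.1 _
  have e3 : fromBlocks (1 + ((a * θ : ℝ) : ℂ) • Y) 0 0 (1 + ((a * σ : ℝ) : ℂ) • X) + N =
      fromBlocks (fc (fun t => 1 + a * θ * t) Y) ((c : ℂ) • V) (-((c : ℂ) • Vᴴ))
        (fc (fun t => 1 + a * σ * t) X) := by
    rw [hN, fromBlocks_add, fY, fX]; simp
  have e4 : ldet (fromBlocks (1 + ((a * θ : ℝ) : ℂ) • Y) 0 0 (1 + ((a * σ : ℝ) : ℂ) • X)) =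
      ∑ i, Real.log (1 + a * θ * ev Y i) + ∑ j, Real.log (1 + a * σ * ev X j) := by
    rw [ldet_of_det (ι := m ⊕ n)
      (f := Sum.elim (fun i => 1 + a * θ * ev Y i) (fun j => 1 + a * σ * ev X j))]
    · rw [Fintype.sum_sum_type]; simp
    · rintro (i | i)
      · exact pθ _ (ev_nonneg hYp i)
      · exact pσ _ (ev_nonneg hXp i)
    · rw [det_fromBlocks_zero₂₁, fY, fX, det_fc, det_fc, Fintype.prod_sum_type]; simp
  have iY : fc (fun t => 1 + a * θ * t) Y * fc (fun t => (1 + a * θ * t)⁻¹) Y = 1 := by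
    rw [fc_mul, ← fc_one Y]
    exact fc_congr_psd hYp fun t ht => mul_inv_cancel₀ (pθ t ht).ne'
  have iX : fc (fun t => 1 + a * σ * t) X * fc (fun t => (1 + a * σ * t)⁻¹) X = 1 := by
    rw [fc_mul, ← fc_one X]
    exact fc_congr_psd hXp fun t ht => mul_inv_cancel₀ (pσ t ht).ne'
  have e5 : ldet (fromBlocks (fc (fun t => 1 + a * θ * t) Y) ((c : ℂ) • V) (-((c : ℂ) • Vᴴ))
        (fc (fun t => 1 + a * σ * t) X)) =
      ∑ i, Real.log (1 + a * θ * ev Y i) +
        ∑ j, (Real.log (Dq a σ θ (ev X j)) - Real.log (1 + a * θ * ev X j)) := by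
    rw [ldet_of_det (ι := m ⊕ n)
      (f := Sum.elim (fun i => 1 + a * θ * ev Y i)
        (fun j => Dq a σ θ (ev X j) / (1 + a * θ * ev X j)))]
    · rw [Fintype.sum_sum_type]
      simp only [Sum.elim_inl, Sum.elim_inr]
      congr 1
      exact Finset.sum_congr rfl fun j _ =>
        Real.log_div (pD _ (ev_nonneg hXp j)).ne' (pθ _ (ev_nonneg hXp j)).ne'
    · rintro (i | i)
      · exact pθ _ (ev_nonneg hYp i)
      · exact div_pos (pD _ (ev_nonneg hXp i)) (pθ _ (ev_nonneg hXp i))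
    · rw [det_fromBlocks_of_inv _ _ _ _ _ iY]
      have : fc (fun t => 1 + a * σ * t) X -
          -((c : ℂ) • Vᴴ) * fc (fun t => (1 + a * θ * t)⁻¹) Y * ((c : ℂ) • V) =
          fc (fun t => Dq a σ θ t / (1 + a * θ * t)) X := by
        rw [Matrix.neg_mul, Matrix.neg_mul, sub_neg_eq_add, Matrix.smul_mul, Matrix.smul_mul,
          Matrix.mul_smul, smul_smul, hcc, hi', Matrix.mul_assoc, ← hX, fc_mul_self hXp.1,
          fc_smul', fc_add]
        refine fc_congr_psd hXp fun t ht => ?_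
        have := (pθ t ht).ne'
        unfold Dq; field_simp
      rw [this, det_fc, det_fc, Fintype.prod_sum_type]; simp
  have e6 : (fromBlocks (fc (fun t => 1 + a * θ * t) Y) ((c : ℂ) • V) (-((c : ℂ) • Vᴴ))
        (fc (fun t => 1 + a * σ * t) X))⁻¹ =
      fromBlocks (fc (fun t => (1 + a * σ * t) / Dq a σ θ t) Y)
        (-((c : ℂ) • (V * fc (fun t => (Dq a σ θ t)⁻¹) X)))
        ((c : ℂ) • (fc (fun t => (Dq a σ θ t)⁻¹) X * Vᴴ))
        (fc (fun t => (1 + a * θ * t) / Dq a σ θ t) X) := by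
    apply inv_eq_right_inv
    rw [fromBlocks_multiply, ← fromBlocks_one]
    congr 1
    · rw [Matrix.smul_mul, Matrix.mul_smul, smul_smul, hcc, ← Matrix.mul_assoc, hi,
        Matrix.mul_assoc, ← hY, fc_mul_self hYp.1, fc_mul, fc_smul', fc_add, ← fc_one Y]
      refine fc_congr_psd hYp fun t ht => ?_
      have := (pD t ht).ne'
      field_simp
      unfold Dq; ring
    · rw [Matrix.mul_neg, Matrix.mul_smul, Matrix.smul_mul, ← Matrix.mul_assoc, ← hi,
        Matrix.mul_assoc, fc_mul, neg_add_eq_zero]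
      congr 2
    · rw [Matrix.neg_mul, Matrix.mul_smul, Matrix.smul_mul, ← Matrix.mul_assoc, hi', fc_mul,
        neg_add_eq_zero]
      congr 2
    · rw [Matrix.neg_mul, Matrix.mul_neg, neg_neg, Matrix.smul_mul, Matrix.mul_smul, smul_smul,
        hcc, ← Matrix.mul_assoc, ← hX, mul_fc hXp.1, fc_mul, fc_smul', fc_add, ← fc_one X]
      refine fc_congr_psd hXp fun t ht => ?_
      have := (pD t ht).ne'
      field_simp
      unfold Dq; ring
  have e7 : (fromBlocks (1 + ((a * θ : ℝ) : ℂ) • Y) 0 0 (1 + ((a * σ : ℝ) : ℂ) • X))⁻¹ =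
      fromBlocks (fc (fun t => (1 + a * θ * t)⁻¹) Y) 0 0 (fc (fun t => (1 + a * σ * t)⁻¹) X) := by
    apply inv_eq_right_inv
    rw [fromBlocks_multiply, ← fromBlocks_one, fY, fX, iY, iX]; simp
  rw [e1, e2, e3, e4, e5, e6, e7] at main
  have e8 : ∀ (A B : Matrix m m ℂ) (A' B' : Matrix n n ℂ) (P : Matrix m n ℂ) (Q : Matrix n m ℂ)
      (E F : Matrix m m ℂ) (E' F' : Matrix n n ℂ),
      trace ((fromBlocks A P Q A' - fromBlocks B 0 0 B') *
        (fromBlocks E 0 0 E' - fromBlocks F 0 0 F')) =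
      trace ((A - B) * (E - F)) + trace ((A' - B') * (E' - F')) := by
    intro A B A' B' P Q E F E' F'
    rw [sub_eq_add_neg, sub_eq_add_neg (fromBlocks E 0 0 E'), fromBlocks_neg, fromBlocks_neg,
      fromBlocks_add, fromBlocks_add, fromBlocks_multiply, trace_fromBlocks']
    simp [sub_eq_add_neg]
  rw [e8, fc_sub, fc_sub, Complex.add_re, re_trace_fc_mul_sub hYp.1,
    re_trace_fc_mul_sub hXp.1] at main
  have g1 : ∑ i, a * ((1 + a * σ * ev Y i) / Dq a σ θ (ev Y i) - (1 + a * θ * ev Y i)⁻¹) *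
      (dg Y T i - θ * ev Y i) = -∑ i, gk a θ σ (ev Y i) * (dg Y T i - θ * ev Y i) := by
    rw [← Finset.sum_neg_distrib]
    refine Finset.sum_congr rfl fun i _ => ?_
    have h1 := (pD _ (ev_nonneg hYp i)).ne'
    have h2 := (pθ _ (ev_nonneg hYp i)).ne'
    rw [← neg_mul]
    congr 1
    unfold gk
    rw [Dq_comm a θ σ]
    exact gk_aux h1 h2 (by unfold Dq; ring)
  have g2 : ∑ i, a * ((1 + a * θ * ev X i) / Dq a σ θ (ev X i) - (1 + a * σ * ev X i)⁻¹) *
      (dg X S i - σ * ev X i) = -∑ i, gk a σ θ (ev X i) * (dg X S i - σ * ev X i) := by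
    rw [← Finset.sum_neg_distrib]
    refine Finset.sum_congr rfl fun i _ => ?_
    have h1 := (pD _ (ev_nonneg hXp i)).ne'
    have h2 := (pσ _ (ev_nonneg hXp i)).ne'
    rw [← neg_mul]
    congr 1
    unfold gk
    exact gk_aux h1 h2 (by unfold Dq; ring)
  rw [g1, g2] at main
  simp only [Finset.sum_sub_distrib] at main ⊢
  linarith

end algebra

section integrate

/-- scale-free gradient kernel -/
noncomputable def gK (α β v : ℝ) : ℝ := v / (((v + α) * (v + β) + v) * (v + α))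

lemma gK_nonneg {α β v : ℝ} (hα : 0 ≤ α) (hβ : 0 ≤ β) (hv : 0 ≤ v) : 0 ≤ gK α β v := by
  unfold gK; positivity

lemma gK_integrable {α β : ℝ} (hα : 0 < α) (hβ : 0 ≤ β) : IntegrableOn (gK α β) (Ioi 0) := by
  have hd : ∀ v ∈ Ici (0 : ℝ), HasDerivAt (fun v : ℝ => -(v + α)⁻¹) (((v + α) ^ 2)⁻¹) v := by
    intro v hv
    have hv : 0 ≤ v := hv
    have h1 : HasDerivAt (fun v : ℝ => v + α) 1 v := (hasDerivAt_id v).add_const α
    refine ((h1.inv (by positivity)).neg).congr_deriv ?_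
    field_simp
  have hl : Tendsto (fun v : ℝ => -(v + α)⁻¹) atTop (𝓝 (-0)) :=
    (tendsto_inv_atTop_zero.comp (tendsto_atTop_add_const_right _ α tendsto_id)).neg
  have hi := integrableOn_Ioi_deriv_of_nonneg' hd (fun v _ => by positivity) hl
  refine Integrable.mono' hi ?_ ?_
  · apply Measurable.aestronglyMeasurable
    unfold gK; fun_prop
  · refine (ae_restrict_iff' measurableSet_Ioi).mpr (Eventually.of_forall fun v hv => ?_)
    have hv : 0 < v := hv
    rw [Real.norm_of_nonneg (gK_nonneg hα.le hβ hv.le)]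
    unfold gK
    rw [← one_div, div_le_div_iff₀ (by positivity) (by positivity)]
    have : 0 ≤ (v + α) * ((v + α) * β + v) := by positivity
    nlinarith

lemma gk_eq {α β y u : ℝ} (hα : 0 ≤ α) (hβ : 0 ≤ β) (hy : 0 < y) (hu : 0 < u) :
    gk u⁻¹ α β y = y⁻¹ * gK α β (y⁻¹ * u) := by
  unfold gk gK Dq
  have h1 : 0 < u + α * y := by positivity
  have h2 : 0 < u + β * y := by positivity
  have e1 : 1 + u⁻¹ * α * y = u⁻¹ * (u + α * y) := by field_simp
  have e2 : 1 + u⁻¹ * β * y = u⁻¹ * (u + β * y) := by field_simp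
  have e3 : y⁻¹ * u + α = y⁻¹ * (u + α * y) := by field_simp
  have e4 : y⁻¹ * u + β = y⁻¹ * (u + β * y) := by field_simp
  rw [e1, e2, e3, e4]
  generalize u + α * y = P at h1 ⊢
  generalize u + β * y = Q at h2 ⊢
  have h3 : 0 < P * Q + u * y := by positivity
  have e5 : u⁻¹ * P * (u⁻¹ * Q) + u⁻¹ * y = u⁻¹ ^ 2 * (P * Q + u * y) := by field_simp
  have e6 : y⁻¹ * P * (y⁻¹ * Q) + y⁻¹ * u = y⁻¹ ^ 2 * (P * Q + u * y) := by field_simp
  rw [e5, e6]
  field_simp

lemma gk_spec {α β y : ℝ} (hα : 0 < α) (hβ : 0 ≤ β) (hy : 0 < y) :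
    IntegrableOn (fun u => gk u⁻¹ α β y) (Ioi 0) ∧
      ∫ u in Ioi (0 : ℝ), gk u⁻¹ α β y = ∫ v in Ioi (0 : ℝ), gK α β v := by
  have hi : 0 < y⁻¹ := inv_pos.mpr hy
  constructor
  · have h1 : IntegrableOn (fun u => gK α β (y⁻¹ * u)) (Ioi 0) := by
      rw [integrableOn_Ioi_comp_mul_left_iff _ _ hi, mul_zero]
      exact gK_integrable hα hβ
    exact IntegrableOn.congr_fun (h1.const_mul y⁻¹) (fun u hu => (gk_eq hα.le hβ hy hu).symm)
      measurableSet_Ioi
  · rw [setIntegral_congr_fun measurableSet_Ioi (fun u hu => gk_eq hα.le hβ hy hu),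
      integral_const_mul, integral_comp_mul_left_Ioi _ _ hi, mul_zero, smul_eq_mul,
      ← mul_assoc, mul_inv_cancel₀ hi.ne', one_mul]

lemma grad_spec {ι : Type} [Fintype ι] {α β : ℝ} (hα : 0 ≤ α) (hβ : 0 ≤ β) {y w : ι → ℝ}
    (hy : ∀ i, 0 ≤ y i) (hw : ∀ i, 0 ≤ w i) (hs : ∑ i, w i = α * ∑ i, y i) :
    IntegrableOn (fun u => ∑ i, gk u⁻¹ α β (y i) * (w i - α * y i)) (Ioi 0) ∧
      ∫ u in Ioi (0 : ℝ), ∑ i, gk u⁻¹ α β (y i) * (w i - α * y i) ≤ 0 := by
  rcases hα.eq_or_lt with h0 | hα'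
  · subst h0
    rw [zero_mul, Finset.sum_eq_zero_iff_of_nonneg fun i _ => hw i] at hs
    have : ∀ i, w i = 0 := fun i => hs i (Finset.mem_univ i)
    simp [this]
  set κ := ∫ v in Ioi (0 : ℝ), gK α β v with hκ
  have hκ0 : 0 ≤ κ := setIntegral_nonneg measurableSet_Ioi fun v hv => gK_nonneg hα hβ (le_of_lt hv)
  have h : ∀ i, IntegrableOn (fun u => gk u⁻¹ α β (y i) * (w i - α * y i)) (Ioi 0) ∧
      ∫ u in Ioi (0 : ℝ), gk u⁻¹ α β (y i) * (w i - α * y i) ≤ κ * (w i - α * y i) := by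
    intro i
    rcases (hy i).eq_or_lt with h0 | hp
    · rw [← h0]
      simp only [gk, mul_zero, zero_div, zero_mul, sub_zero]
      exact ⟨integrableOn_zero, by simpa using mul_nonneg hκ0 (hw i)⟩
    · refine ⟨(gk_spec hα' hβ hp).1.mul_const _, ?_⟩
      rw [integral_mul_const, (gk_spec hα' hβ hp).2]
  refine ⟨integrable_finsetSum _ fun i _ => (h i).1, ?_⟩
  rw [integral_finsetSum _ fun i _ => (h i).1]
  refine (Finset.sum_le_sum fun i _ => (h i).2).trans ?_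
  rw [← Finset.mul_sum, Finset.sum_sub_distrib, ← Finset.mul_sum, hs, sub_self, mul_zero]

variable {m n k : Type} [Fintype m] [Fintype n] [Fintype k] [DecidableEq m] [DecidableEq n]
  [DecidableEq k]

/-- the entropy of a two-point spectrum, homogeneous of degree one -/
noncomputable def E2 (m₁ m₂ : ℝ) : ℝ :=
  Real.negMulLog m₁ + Real.negMulLog m₂ - Real.negMulLog (m₁ + m₂)

theorem path3 (V : Matrix m n ℂ) {T : Matrix m m ℂ} {S : Matrix n n ℂ} {τ : Matrix k k ℂ}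
    (hT : T.PosSemidef) (hS : S.PosSemidef) (hτ : τ.PosSemidef)
    (hdet : ∀ c : ℝ, det (1 + ((c ^ 2 : ℝ) : ℂ) • τ) =
      det (fromBlocks (1 + ((c ^ 2 : ℝ) : ℂ) • T) ((c : ℂ) • V) (-((c : ℂ) • Vᴴ))
        (1 + ((c ^ 2 : ℝ) : ℂ) • S)))
    (htr : tr τ = tr (Vᴴ * V) + tr S + tr T) {m₁ m₂ : ℝ} (h₁ : 0 ≤ m₁) (h₂ : 0 ≤ m₂)
    (hsum : m₁ + m₂ = tr τ) (hprod : m₁ * m₂ = tr S * tr T) :
    hent (Vᴴ * V) + hent S + hent T + E2 m₁ m₂ ≤ hent τ := by
  have hXp : (Vᴴ * V).PosSemidef := posSemidef_conjTranspose_mul_self V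
  have hYp : (V * Vᴴ).PosSemidef := posSemidef_self_mul_conjTranspose V
  have hs0 := tr_nonneg hS
  have ht0 := tr_nonneg hT
  unfold hent E2
  rw [hsum]
  rcases (tr_nonneg hXp).eq_or_lt with hx | hx
  · have hV : V = 0 := conjTranspose_mul_self_eq_zero.mp (eq_zero_of_tr hXp hx.symm)
    subst hV
    have e : vnEntropy τ = vnEntropy T + vnEntropy S := by
      rw [← vn_fromBlocks_diag hT hS]
      refine vn_congr hτ (psd_fromBlocks_diag hT hS) (fun a ha => ?_) ?_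
      · have := hdet √a
        rw [Real.sq_sqrt ha.le] at this
        rw [this, ← fromBlocks_one, fromBlocks_smul, fromBlocks_add]; simp
      · rw [htr, tr_fromBlocks, ← hx]; ring
    rw [htr, ← hx] at hsum
    have e2 : Real.negMulLog m₁ + Real.negMulLog m₂ =
        Real.negMulLog (tr S) + Real.negMulLog (tr T) := by
      have : (m₁ - tr S) * (m₁ - tr T) = 0 := by
        have : m₂ = tr S + tr T - m₁ := by linarith
        rw [this] at hprod; linarith
      rcases mul_eq_zero.mp this with h | h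
      · rw [show m₁ = tr S by linarith, show m₂ = tr T by linarith]
      · rw [show m₁ = tr T by linarith, show m₂ = tr S by linarith, add_comm]
    rw [e, e2, ← hx]
    simp only [Matrix.mul_zero, vn_zero, Real.negMulLog_zero]
    linarith
  set x := tr (Vᴴ * V) with hxdef
  have hxY : tr (V * Vᴴ) = x := by rw [hxdef]; unfold tr; rw [trace_mul_comm]
  set σ := tr S / x with hσ
  set θ := tr T / x with hθ
  set μ₁ := m₁ / x with hμ₁
  set μ₂ := m₂ / x with hμ₂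
  have hσ0 : 0 ≤ σ := by positivity
  have hθ0 : 0 ≤ θ := by positivity
  have hμ₁0 : 0 ≤ μ₁ := by positivity
  have hμ₂0 : 0 ≤ μ₂ := by positivity
  have es : tr S = σ * x := by rw [hσ]; field_simp
  have et : tr T = θ * x := by rw [hθ]; field_simp
  have e1 : m₁ = μ₁ * x := by rw [hμ₁]; field_simp
  have e2 : m₂ = μ₂ * x := by rw [hμ₂]; field_simp
  have hsum' : μ₁ + μ₂ = 1 + σ + θ := by
    apply mul_right_cancel₀ hx.ne'
    rw [add_mul, ← e1, ← e2, hsum, htr, es, et]; ring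
  have hprod' : μ₁ * μ₂ = σ * θ := by
    apply mul_right_cancel₀ (pow_ne_zero 2 hx.ne')
    calc μ₁ * μ₂ * x ^ 2 = m₁ * m₂ := by rw [e1, e2]; ring
      _ = σ * θ * x ^ 2 := by rw [hprod, es, et]; ring
  set y := ev (Vᴴ * V) with hy
  have hy0 : ∀ j, 0 ≤ y j := ev_nonneg hXp
  have hysum : ∑ j, y j = x := (tr_eq_sum hXp.1).symm
  have gT := grad_spec hθ0 hσ0 (ev_nonneg hYp) (dg_nonneg (V * Vᴴ) hT)
    (by rw [sum_dg, ← tr_eq_sum hYp.1, hxY, et])
  have gS := grad_spec hσ0 hθ0 hy0 (dg_nonneg (Vᴴ * V) hS) (by rw [sum_dg, hysum, es])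
  have k1 := kap_sum_spec (fun j => mul_nonneg hμ₁0 (hy0 j))
  have k2 := kap_sum_spec (fun j => mul_nonneg hμ₂0 (hy0 j))
  have k3 := kap_sum_spec (fun j => mul_nonneg hσ0 (hy0 j))
  have k4 := kap_sum_spec (fun j => mul_nonneg hθ0 (hy0 j))
  have iτ := entk_spec hτ
  have iS := entk_spec hS
  have iT := entk_spec hT
  have main := setIntegral_mono_on ((((k1.1.add k2.1).sub k3.1).sub k4.1).sub (gT.1.add gS.1))
    ((iτ.1.sub iT.1).sub iS.1) measurableSet_Ioi (fun u hu => by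
      have hu : 0 < u := hu
      have hi : 0 < u⁻¹ := inv_pos.mpr hu
      have pw := path3_pointwise V hT hS hσ0 hθ0 √(u⁻¹)
      have hd := hdet √(u⁻¹)
      rw [Real.sq_sqrt hi.le] at pw hd
      have eD : ∀ j, Real.log (Dq u⁻¹ σ θ (y j)) =
          Real.log (1 + u⁻¹ * (μ₁ * y j)) + Real.log (1 + u⁻¹ * (μ₂ * y j)) := by
        intro j
        have := hy0 j
        rw [← Real.log_mul (by positivity) (by positivity)]
        congr 1
        unfold Dq
        linear_combination (-(u⁻¹ * y j)) * hsum' - (u⁻¹ * y j) ^ 2 * hprod'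
      simp only [← hy, eD, mul_assoc] at pw
      simp only [Pi.add_apply, Pi.sub_apply, entk, kap, ldet, Finset.sum_sub_distrib,
        Finset.sum_add_distrib, ← Finset.sum_mul, ← Finset.mul_sum, hysum] at pw ⊢
      rw [hd, htr, es, et]
      have : μ₁ * x * Real.log (1 + u⁻¹) + μ₂ * x * Real.log (1 + u⁻¹) =
          (x + σ * x + θ * x) * Real.log (1 + u⁻¹) := by
        linear_combination (x * Real.log (1 + u⁻¹)) * hsum'
      linarith)
  rw [integral_sub' (((k1.1.add k2.1).sub k3.1).sub k4.1) (gT.1.add gS.1),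
    integral_sub' ((k1.1.add k2.1).sub k3.1) k4.1, integral_sub' (k1.1.add k2.1) k3.1,
    integral_add' k1.1 k2.1, integral_add' gT.1 gS.1, integral_sub' (iτ.1.sub iT.1) iS.1,
    integral_sub' iτ.1 iT.1, k1.2, k2.2, k3.2, k4.2, iτ.2, iS.2, iT.2] at main
  simp only [Real.negMulLog_mul, Finset.sum_add_distrib, ← Finset.sum_mul, ← Finset.mul_sum,
    hysum] at main
  rw [vn_eq hXp.1, ← hy, es, et, e1, e2]
  simp only [Real.negMulLog_mul]
  have g1 := gT.2
  have g2 := gS.2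
  have a1 : μ₁ * ∑ j, Real.negMulLog (y j) + μ₂ * ∑ j, Real.negMulLog (y j) =
      (1 + σ + θ) * ∑ j, Real.negMulLog (y j) := by rw [← hsum']; ring
  have a2 : μ₁ * Real.negMulLog x + μ₂ * Real.negMulLog x = (1 + σ + θ) * Real.negMulLog x := by
    rw [← hsum']; ring
  linarith

end integrate

end Crest.Agent.R341
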